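import Vale.Agent.P366Y.G.Defs

/-!
# P366Y: definitions for the reduction of the spacetime inequality to a neck
-/

open MeasureTheory Metric Filter Topology Set
open scoped ContDiff ENNReal
open Vale.Agent.P366.Stmt Vale.Agent.P366Z

noncomputable section

namespace Vale.Agent.P366Y

variable {n : ℕ}

/-- matrices -/
abbrev Mx (n : ℕ) := Fin n → Fin n → ℝ

/-- covectors -/
abbrev Vc (n : ℕ) := Fin n → ℝ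

/-- the first derivatives -/
def D1 (v : E n → ℝ) (x : E n) : Vc n := fun i => pd i v x

/-- the second derivatives -/
def D2 (v : E n → ℝ) (x : E n) : Mx n := fun i j => pd i (pd j v) x

/-- the pairing of two matrices -/
def pr2 (a H : Mx n) : ℝ := ∑ i, ∑ j, a i j * H i j

/-- the Euclidean square of a covector -/
def e2 (p : Vc n) : ℝ := ∑ i, p i ^ 2

/-- bounded by `A` and `α`-Hölder with the constant `A` -/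
def Ho {V : Type} [NormedAddCommGroup V] (α A : ℝ) (f : E n → V) : Prop :=
  (∀ x, ‖f x‖ ≤ A) ∧ ∀ x y, ‖f x - f y‖ ≤ A * ‖x - y‖ ^ α

/-- the class `C^(2, α)` with the bound `A` -/
def C2H (α A : ℝ) (v : E n → ℝ) : Prop :=
  ContDiff ℝ 2 v ∧ Ho α A v ∧ Ho α A (D1 v) ∧ Ho α A (D2 v)

/-- a symmetric matrix with ellipticity constant `Λ` -/
def El (Λ : ℝ) (a : Mx n) : Prop :=
  (∀ i j, a i j = a j i) ∧ (∀ i j, |a i j| ≤ Λ) ∧ ∀ ξ : Vc n, e2 ξ ≤ Λ * ∑ i, ∑ j, a i j * ξ i * ξ j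

/-- one on the ball of radius `r`, zero outside the ball of radius `r + 1` -/
def rc (r : ℝ) (x : E n) : ℝ := Real.smoothTransition (((r + 1) ^ 2 - ‖x‖ ^ 2) / (2 * r + 1))

/-- the bubble -/
def bu (n : ℕ) (x : E n) : ℝ := (1 + ‖x‖ ^ 2) ^ ((2 - n : ℝ) / 2)

/-- the class of De Giorgi on the ball `B (x₀, r)` for the levels `k ≥ k₀` -/
def DG (γ χ k₀ : ℝ) (v : E n → ℝ) (x₀ : E n) (r : ℝ) : Prop :=
  ∀ k ≥ k₀, ∀ ζ : E n → ℝ, Lip ζ → (∀ y, 0 ≤ ζ y ∧ ζ y ≤ 1) → (∀ y, r ≤ ‖y - x₀‖ → ζ y = 0) →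
    ∫ y in {y | k < v y}, ζ y ^ 2 * e2 (D1 v y) ≤
      γ * (∫ y, e2 (D1 ζ y) * max (v y - k) 0 ^ 2) + χ ^ 2 * volume.real {y | k < v y ∧ ζ y ≠ 0}

/-! ### the data -/

/-- the prepared data: the metric is `cf U g₀` -/
structure Dat (n : ℕ) where
  g₀ : Field n
  K : Field n
  F : E n → ℝ
  U : E n → ℝ
  ϖ : E n → ℝ
  p : E n → ℝ
  R : ℝ
  ρ : ℝ
  p₀ : ℝ
  s₀ : ℝ
  θ₀ : ℝ
  k₀ : ℝ
  β₁ : ℝ
  β₂ : ℝ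

/-- the metric of the data -/
def Dat.g (X : Dat n) : Field n := cf X.U X.g₀

/-- the properties of the prepared data -/
structure Dat.Ok (X : Dat n) : Prop where
  dim : 3 ≤ n
  met : Met X.g₀
  flat : Flat X.g₀ X.ρ
  R1 : 1 ≤ X.R
  Rρ : X.R + 10 ≤ X.ρ
  smU : Smooth X.U
  Ub : ∀ x, 3 / 4 ≤ X.U x ∧ X.U x ≤ 9 / 8
  harm : ∀ x, X.ρ ≤ ‖x‖ → lap X.g₀ X.U x = 0
  asy : Asy X.U 1 X.β₁
  smK : ∀ i j, Smooth fun x => X.K x i j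
  syK : ∀ x i j, X.K x i j = X.K x j i
  K0 : ∀ x, X.R + 3 ≤ ‖x‖ → X.K x = 0
  smF : Smooth X.F
  far : ∀ x, X.R ≤ ‖x‖ → X.s₀ < X.F x
  smp : Smooth X.p
  p0 : 0 < X.p₀
  pb : ∀ x, 0 ≤ X.p x ∧ X.p x ≤ X.p₀
  pin : ∀ x, X.F x ≤ X.s₀ → X.p x = 0
  pout : ∀ x, X.R ≤ ‖x‖ → X.p x = X.p₀ ∧ n * normSq X.g X.K x ≤ (X.p₀ / 4) ^ 2
  dec : ∀ x, 0 ≤ X.F x → ‖x‖ ≤ X.R + 2 → 2 * covNorm X.g (mom X.g X.K) x + 4 * gn X.g X.p x +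
    min (tr X.g X.K x ^ 2) (4 * X.p x * |tr X.g X.K x|) < 2 * mu X.g X.K x
  dec' : ∀ x, X.R + 2 ≤ ‖x‖ → ‖x‖ ≤ X.R + 8 → tr X.g X.K x ^ 2 < 2 * mu X.g X.K x
  sc : ∀ x, X.R + 8 ≤ ‖x‖ → 0 ≤ cl X.g₀ X.U x ∧ 0 < cl X.g₀ X.U x / 2 + cl X.g₀ X.ϖ x
  cvx : ∀ x, X.R ≤ ‖x‖ → ‖x‖ ≤ X.R + 2 → ∀ ξ : Vc n,
    0 ≤ ∑ i, ∑ j, hess X.g (fun y => ‖y‖ ^ 2) x i j * ξ i * ξ j
  s0 : 0 < X.s₀
  θ0 : 0 < X.θ₀ ∧ X.θ₀ ≤ 1 ∧ 1 ≤ X.k₀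
  reg : ∀ x, |X.F x| ≤ X.s₀ → gn X.g X.F x ≠ 0
  trap : ∀ x, -(X.s₀ / 16) ≤ X.F x → X.F x ≤ X.s₀ → thetaPlus X.g X.K X.F x ≤ -X.θ₀
  neg : ∀ x, X.F x ≤ -(X.s₀ / 16) → ∀ ξ : Vc n,
    ∑ i, ∑ j, X.K x i j * ξ i * ξ j ≤ -X.k₀ * ∑ i, ∑ j, X.g x i j * ξ i * ξ j
  hes : ∀ x, -(X.s₀ / 8) ≤ X.F x → X.F x ≤ -(X.s₀ / 16) →
    16 * n * normSq X.g (hess X.g X.F) x ≤ X.k₀ ^ 2 * ip X.g X.F X.F x
  smϖ : Smooth X.ϖ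
  ϖb : ∀ x, 0 ≤ X.ϖ x ∧ X.ϖ x ≤ 1 / 8
  ϖ0 : ∀ x, ‖x‖ ≤ X.R + 8 → X.ϖ x = 0
  ϖa : Asy X.ϖ 0 X.β₂
  ϖd : ∃ C, ∀ x, ‖fderiv ℝ (lap X.g₀ X.ϖ) x‖ ≤ C

/-- the relation of the prepared data with the exterior `D` -/
structure Dat.Of (X : Dat n) (D : Exterior n) (m η δ : ℝ) : Prop where
  mass : 2 * (X.β₁ + X.β₂) ≤ m + η
  src : ∀ x, X.ρ ≤ ‖x‖ → -(δ * ‖x‖ ^ (-(n + 2) : ℝ)) ≤ lap X.g₀ X.ϖ x ∧ lap X.g₀ X.ϖ x ≤ 0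
  deep : ∀ x, D.F x ≤ 0 → X.F x ≤ 0
  cmp : Y.Cmp D η X.g₀ X.U

/-! ### the parameters -/

/-- the parameters: `φ` is the warping function with the floor `φ₀`, `βf` the switch of the floor,
`T₁` the capillary term -/
structure Pa where
  φ : ℝ → ℝ
  βf : ℝ → ℝ
  T₁ : ℝ → ℝ
  η : ℝ
  φ₀ : ℝ
  lam : ℝ
  L : ℝ
  τ : ℝ
  F₀ : ℝ
  M₀ : ℝ
  p₁ : ℝ
  CK : ℝ

/-- the structure of the parameters -/
structure Pa.Ok (P : Pa) : Prop where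
  η0 : 0 < P.η ∧ P.η ≤ 1 / 16
  φ0 : 0 < P.φ₀ ∧ P.φ₀ ≤ 1
  smφ : ContDiff ℝ ∞ P.φ
  φlo : ∀ z ≤ 1 - P.η, P.φ z = P.φ₀
  φhi : ∀ z ≥ 1 + P.η, P.φ z = 2
  φ1 : P.φ 1 = 1
  φb : ∀ z, P.φ₀ ≤ P.φ z ∧ P.φ z ≤ 2
  φd : ∀ z, 0 ≤ deriv P.φ z ∧ deriv P.φ z ≤ P.lam * P.φ z
  smβ : ContDiff ℝ ∞ P.βf
  βb : ∀ z, 0 ≤ P.βf z ∧ P.βf z ≤ 1
  β1 : ∀ z ≤ 1 - 2 * P.η, P.βf z = 1
  β0 : ∀ z ≥ 1 - P.η, P.βf z = 0
  smT : ContDiff ℝ ∞ P.T₁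
  Td : ∀ z, P.τ ≤ deriv P.T₁ z
  Tl : ∀ z, |z| ≤ 4 * P.F₀ → P.T₁ z = P.τ * z
  Tb : ∀ z, |z| ≤ 8 * P.F₀ → |P.T₁ z| ≤ 2 * P.CK
  Tu : P.CK ≤ P.T₁ (8 * P.F₀) ∧ P.T₁ (-(8 * P.F₀)) ≤ -P.CK
  pos : 1 ≤ P.lam ∧ 1 ≤ P.L ∧ 0 < P.τ ∧ P.τ ≤ 1 ∧ 1 ≤ P.F₀ ∧ 1 ≤ P.M₀ ∧ 0 < P.p₁ ∧ P.p₁ ≤ 1 ∧
    1 ≤ P.CK

/-- the order of the parameters; `C` depends on the data only -/
structure Pa.Big (P : Pa) (C : ℝ) : Prop where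
  b1 : C * P.lam ≤ P.L
  b2 : C * (P.τ * P.F₀) ≤ 1
  b3 : C * P.L ≤ P.η * P.τ * P.φ₀ ^ 4 * P.M₀
  b4 : C * P.L * (P.φ₀ + P.L * P.φ₀ ^ 2 / P.τ) ≤ P.η
  b5 : C * (1 + Real.log P.F₀) ^ 2 ≤ P.L
  b6 : C ≤ P.φ₀ * P.F₀
  b7 : C * P.L * P.p₁ ^ 2 ≤ P.φ₀ ^ 4

/-- `CK` bounds the tensor `K` -/
def Pa.For (P : Pa) (X : Dat n) : Prop :=
  P.p₁ ≤ X.p₀ ∧ ∀ x, n * normSq X.g X.K x ≤ P.CK ^ 2

/-- the admissible smoothed warping functions: `ψ` is `A`-Lipschitz -/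
structure Ps (X : Dat n) (P : Pa) (A : ℝ) (ψ : E n → ℝ) : Prop where
  sm : Smooth ψ
  bd : ∀ x, P.φ₀ ≤ ψ x ∧ ψ x ≤ 2
  two : ∀ x, X.R + 5 ≤ ‖x‖ → ψ x = 2
  lip : ∀ x, ‖fderiv ℝ ψ x‖ ≤ A

/-! ### the equation for `f` -/

/-- the square of a covector -/
def sq (g : Field n) (x : E n) (p : Vc n) : ℝ := ∑ i, ∑ j, up g i j x * p i * p j

/-- the vector of a covector -/
def rs (g : Field n) (x : E n) (p : Vc n) (i : Fin n) : ℝ := ∑ j, up g i j x * p j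

/-- the cut in the gradient: one for `t ≤ M₀²`, zero for `2 M₀² ≤ t` -/
def Pa.th (P : Pa) (t : ℝ) : ℝ := Real.smoothTransition (2 - t / P.M₀ ^ 2)

/-- the potential of the gauge; `y` is the value of `ψ` and `t` the square of the gradient -/
def Pa.G (P : Pa) (y t : ℝ) : ℝ := P.th t * Real.log (1 + P.L * y ^ 2 * t) +
  (1 - P.th t) * (Real.log (1 + 4 * P.L * t) + Real.log (y ^ 2 / 4))

/-- its derivative; `1 - t * Gs y t` is the inverse of `Γ` -/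
def Pa.Gs (P : Pa) (y t : ℝ) : ℝ := deriv (P.G y) t

/-- the factor `W / ψ` -/
def Pa.om (P : Pa) (y t : ℝ) : ℝ := √(P.th t / y ^ 2 + (1 - P.th t) / 4 + t)

/-- the geometric principal part -/
def ag (X : Dat n) (P : Pa) (ψ : E n → ℝ) (x : E n) (p : Vc n) : Mx n := fun i j =>
  up X.g i j x - rc (X.R + 7) x * P.Gs (ψ x) (sq X.g x p) * rs X.g x p i * rs X.g x p j

/-- the capillary term -/
def cap (X : Dat n) (P : Pa) (s : ℝ) (x : E n) (z : ℝ) : ℝ :=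
  P.T₁ z + (rc (X.R + 3) x * X.p x + (1 - rc (X.R + 3) x) * P.p₁) * Real.arctan (z / s)

/-- the principal part in coordinates -/
def aJ (X : Dat n) (P : Pa) (ψ : E n → ℝ) (x : E n) (p : Vc n) : Mx n := fun i j =>
  X.U x ^ (2 * bb n) * ag X P ψ x p i j

/-- the right hand side; `σ` is the parameter of the homotopy -/
def bJ (X : Dat n) (P : Pa) (s l σ : ℝ) (ψ : E n → ℝ) (x : E n) (z : ℝ) (p : Vc n) : ℝ :=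
  σ * rc (X.R + 7) x * X.U x ^ (2 * bb n) *
    (P.om (ψ x) (sq X.g x p) * (pr2 (ag X P ψ x p) (X.K x) + cap X P s x z) +
      pr2 (ag X P ψ x p) fun i j => ∑ k, chr X.g k i j x * p k) +
    (1 - σ * rc (X.R + 7) x) * l * z

/-- `f` solves the equation of the gauge -/
structure Jf (X : Dat n) (P : Pa) (s l σ : ℝ) (ψ f : E n → ℝ) : Prop where
  sm : Smooth f
  lim : Tendsto f (cocompact (E n)) (𝓝 0)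
  c2 : ∃ α ∈ Ioo (0 : ℝ) 1, ∃ A, C2H α A f
  eqn : ∀ x, pr2 (aJ X P ψ x (D1 f x)) (D2 f x) = bJ X P s l σ ψ x (f x) (D1 f x)

/-- what the mass estimate uses about `f` -/
structure Jg (X : Dat n) (P : Pa) (s M ε : ℝ) (ψ f : E n → ℝ) : Prop where
  sm : Smooth f
  eqn : ∀ x, ‖x‖ ≤ X.R + 7 → pr2 (ag X P ψ x (D1 f x)) (hess X.g f x) =
    P.om (ψ x) (ip X.g f f x) * (pr2 (ag X P ψ x (D1 f x)) (X.K x) + cap X P s x (f x))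
  sup : ∀ x, |f x| ≤ 8 * P.F₀
  grad : ∀ x, ‖fderiv ℝ f x‖ ≤ M
  inn : ∀ x, X.F x ≤ 0 → 2 * P.F₀ ≤ f x
  out : ∀ x, X.R + 1 ≤ ‖x‖ → |f x| ≤ s
  far : ∀ x, X.R + 6 ≤ ‖x‖ → ‖fderiv ℝ f x‖ ≤ ε

/-! ### the equation for `u` -/

/-- the metric `g + w² df²` -/
def gb (g : Field n) (w f : E n → ℝ) : Field n := fun x i j =>
  g x i j + w x ^ 2 * pd i f x * pd j f x

/-- the warping function -/
def wp (X : Dat n) (P : Pa) (u : E n → ℝ) (x : E n) : ℝ := rc (X.R + 6) x * P.φ (u x)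

/-- the penalty of the floor -/
def flo (X : Dat n) (P : Pa) (cY : ℝ) (ψ f : E n → ℝ) (x : E n) : ℝ :=
  cY * (1 + ((1 - rc (X.R + 7) x * P.Gs (ψ x) (ip X.g f f x) * ip X.g f f x) *
    (1 + (rc (X.R + 6) x * P.φ₀) ^ 2 * ip X.g f f x))⁻¹)

/-- the constants of the equation for `u` -/
structure Cu where
  σ₀ : ℝ
  A : ℝ
  cY : ℝ
  um : ℝ
  A' : ℝ

/-- the prescribed curvature -/
def Lam (X : Dat n) (P : Pa) (c : Cu) (ψ f : E n → ℝ) (x : E n) (z : ℝ) : ℝ :=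
  rc (X.R + 7) x * c.σ₀ + (1 - rc (X.R + 7) x) * scal X.g x +
    rc X.ρ x * (P.βf z * flo X P c.cY ψ f x - c.A' * Real.smoothTransition (z - c.um)) -
    c.A * Real.smoothTransition (4 * f x ^ 2 / P.F₀ ^ 2 - 1) * (1 - P.βf z)

/-- the operator -/
def Nu (X : Dat n) (P : Pa) (c : Cu) (ψ f u : E n → ℝ) (x : E n) : ℝ :=
  4 * gam n * lap (gb X.g (wp X P u) f) u x -
    (scal (gb X.g (wp X P u) f) x - Lam X P c ψ f x (u x)) * u x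

/-- the principal part of the operator -/
def aU (X : Dat n) (P : Pa) (x : E n) (p : Vc n) (z : ℝ) : Mx n := fun i j =>
  4 * gam n * (up X.g i j x - (rc (X.R + 6) x * P.φ z) ^ 2 * rs X.g x p i * rs X.g x p j /
      (1 + (rc (X.R + 6) x * P.φ z) ^ 2 * sq X.g x p)) +
    2 * z * rc (X.R + 6) x ^ 2 * P.φ z * deriv P.φ z *
      (sq X.g x p * up X.g i j x - rs X.g x p i * rs X.g x p j) /
      (1 + (rc (X.R + 6) x * P.φ z) ^ 2 * sq X.g x p)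

/-- `u` solves the equation -/
structure Us (X : Dat n) (P : Pa) (c : Cu) (ψ f u : E n → ℝ) : Prop where
  sm : Smooth u
  lim : Tendsto u (cocompact (E n)) (𝓝 1)
  bd : ∀ x, 1 - 2 * P.η ≤ u x ∧ u x ≤ c.um + 1
  eqn : ∀ x, Nu X P c ψ f u x = 0

/-- the energy on the ball of radius `r` -/
def En (u : E n → ℝ) (r : ℝ) : ℝ := ∫ x in ball (0 : E n) r, e2 (D1 u x)

/-- a smoothing operator at the scale `δ` that dominates -/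
structure Mol (C δ : ℝ) (S : (E n → ℝ) → E n → ℝ) : Prop where
  sm : ∀ h, Continuous h → Smooth (S h)
  ge : ∀ h x, Continuous h → h x ≤ S h x
  cst : ∀ (c : ℝ) x, S (fun _ => c) x = c
  loc : ∀ h h' x (e : ℝ), Continuous h → Continuous h' → (∀ y ∈ ball x (2 * δ), h y ≤ h' y + e) →
    S h x ≤ S h' x + e
  lip : ∀ h x (a b : ℝ), Continuous h → (∀ y, a ≤ h y ∧ h y ≤ b) →
    ‖fderiv ℝ (S h) x‖ ≤ C * (b - a) / δ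

/-- the smoothed warping function of `u` -/
def psi (X : Dat n) (P : Pa) (S : (E n → ℝ) → E n → ℝ) (u : E n → ℝ) (x : E n) : ℝ :=
  rc (X.R + 4) x * S (fun y => P.φ (u y)) x + (1 - rc (X.R + 4) x) * 2

/-- the output of the analysis -/
structure Sol (X : Dat n) (σ₀ η ℓ : ℝ) (w f u : E n → ℝ) (φ₀ F₀ β : ℝ) : Prop where
  smw : Smooth w
  smf : Smooth f
  smu : Smooth u
  φ0 : 0 < φ₀ ∧ φ₀ ≤ 1 ∧ 4 ≤ F₀ ∧ ℓ ≤ φ₀ * F₀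
  wlo : ∀ x, ‖x‖ ≤ X.R + 6 → φ₀ ≤ w x
  w0 : ∀ x, X.R + 7 ≤ ‖x‖ → w x = 0
  lo : ∀ x, 1 - 2 * η ≤ u x
  inn : ∀ x, X.F x ≤ 0 → 2 * F₀ ≤ f x
  out : ∀ x, X.R + 1 ≤ ‖x‖ → |f x| ≤ 1
  pos : ∀ x, |f x| ≤ F₀ / 2 → rc (X.R + 7) x * σ₀ + (1 - rc (X.R + 7) x) * scal X.g x ≤
    scal (gb X.g w f) x - 4 * gam n * lap (gb X.g w f) u x / u x
  harm : ∀ x, X.ρ + 1 ≤ ‖x‖ → lap X.g u x = 0
  asy : Asy (fun x => X.U x * u x) 1 β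
  mass : β ≤ X.β₁ + η

end Vale.Agent.P366Y
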