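import Vale.Agent.P366Y.Neck0
import Vale.Agent.P366Y.G.Sch
import Vale.Agent.P366Z.Newt

/-!
# P366Y: the expansion of the solution at infinity
-/

open MeasureTheory Metric Filter Topology Set Asymptotics
open scoped ContDiff ENNReal
open Vale.Agent.P366.Stmt Vale.Agent.P366Z

noncomputable section

namespace Vale.Agent.P366Y

variable {n : ℕ}

open Y.SchX in
/-- the expansion of a quotient -/
theorem asy_div (hn : 3 ≤ n) {U u : E n → ℝ} {b β : ℝ} (sU : Smooth U) (su : Smooth u)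
    (U0 : ∀ x, 1 / 2 ≤ U x) (hU : Asy U 1 b) (hv : Asy (fun x => U x * u x) 1 β) :
    Asy u 1 (β - b) := by
  have p0 : ∀ x, 0 < U x := fun x => by linarith [U0 x]
  have n3 : (3 : ℝ) ≤ n := by exact_mod_cast hn
  have b3 : (fun x => (U x)⁻¹) =O[cocompact (E n)] fun _ => (1 : ℝ) := of_bd (C := 2) fun x => by
    rw [abs_of_pos (inv_pos.2 (p0 x)), inv_le_comm₀ (p0 x) two_pos]
    linarith [U0 x]
  have p := val hn hU
  have q := val hn hv
  have s : (fun x => u x - 1) =O[cocompact (E n)] fun x => ‖x‖⁻¹ :=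
    ((q.sub p).mul b3).congr (fun x => by
      have := (p0 x).ne'
      field_simp
      ring) fun x => mul_one _
  have v1 : ∀ {w : E n → ℝ} {c : ℝ}, Asy w 1 c → (fun x => w x - 1 - c * ‖x‖ ^ (2 - n : ℝ))
      =O[cocompact (E n)] fun x => ‖x‖ ^ (1 - n : ℝ) := fun ⟨C, R, e⟩ =>
    of_far (fun x hx => (e x hx).1) fun x => by positivity
  have r1 : (fun x : E n => ‖x‖ ^ (2 - n : ℝ) * ‖x‖⁻¹) =O[cocompact (E n)]
      fun x => ‖x‖ ^ (1 - n : ℝ) := of_far (C := 1) (R := 1) (fun x hx => by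
    rw [← Real.rpow_neg_one, ← Real.rpow_add (by linarith), one_mul, abs_of_nonneg (by positivity)]
    exact le_of_eq (by congr 1; ring)) fun x => by positivity
  have a1 : (fun x => u x - 1 - (β - b) * ‖x‖ ^ (2 - n : ℝ)) =O[cocompact (E n)]
      fun x => ‖x‖ ^ (1 - n : ℝ) := by
    have y1 := ((v1 hv).sub (v1 hU)).sub ((((isBigO_refl (fun x : E n => ‖x‖ ^ (2 - n : ℝ))
      _).mul p).trans r1).const_mul_left (β - b))
    refine (y1.mul b3).congr (fun x => ?_) fun x => mul_one _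
    have := (p0 x).ne'
    field_simp
    ring
  have a2 : ∀ i, (fun x => pd i u x + (n - 2) * (β - b) * x i * ‖x‖ ^ (-n : ℝ))
      =O[cocompact (E n)] fun x => ‖x‖ ^ (-n : ℝ) := fun i => by
    have x1 : (fun x : E n => x i) =O[cocompact (E n)] fun x => ‖x‖ :=
      of_far (C := 1) (R := 0) (fun x _ => by rw [one_mul]; exact AsyF.abs_coord x i) norm_nonneg
    have x2 : (fun x : E n => ‖x‖ * ‖x‖⁻¹) =O[cocompact (E n)] fun _ => (1 : ℝ) :=
      of_bd (C := 1) fun x => by
        rw [abs_of_nonneg (by positivity)]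
        exact mul_inv_le_one
    have x3 : (fun x : E n => ‖x‖⁻¹) =O[cocompact (E n)] fun _ => (1 : ℝ) :=
      of_far (C := 1) (R := 1) (fun x hx => by
        rw [abs_of_nonneg (by positivity), one_mul]
        exact inv_le_one_of_one_le₀ hx) fun _ => zero_le_one
    have y0 := ((s.trans x3).mul (der hU i)).congr_right
      (g₂ := fun x => ‖x‖ ^ (-n : ℝ)) fun x => one_mul _
    have y2 := ((((x1.mul ((p.const_mul_left (β - b)).add (s.const_mul_left b))).trans x2).mul
      (isBigO_refl (fun x : E n => ‖x‖ ^ (-n : ℝ)) _)).const_mul_left (n - 2 : ℝ)).congr_right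
        (g₂ := fun x => ‖x‖ ^ (-n : ℝ)) fun x => one_mul _
    refine ((((((der hv i).sub (der hU i)).sub y0).add y2)).mul b3).congr (fun x => ?_)
      fun x => mul_one _
    have := (p0 x).ne'
    rw [pd_mul (sU.diff x) (su.diff x)]
    field_simp
    ring
  obtain ⟨C₁, h1⟩ := a1.bound
  obtain ⟨C₂, h2⟩ := (isBigO_pi.2 a2).bound
  obtain ⟨R, hR⟩ := to_far (h1.and h2)
  refine ⟨max C₁ C₂, R, fun x hx => ⟨?_, fun i => ?_⟩⟩
  · have := (hR x hx).1
    rw [Real.norm_eq_abs, Real.norm_of_nonneg (by positivity)] at this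
    exact this.trans (mul_le_mul_of_nonneg_right (le_max_left _ _) (by positivity))
  · have := (norm_le_pi_norm _ i).trans (hR x hx).2
    rw [Real.norm_eq_abs, Real.norm_of_nonneg (by positivity)] at this
    exact this.trans (mul_le_mul_of_nonneg_right (le_max_right _ _) (by positivity))

/-- `U u` is harmonic far away -/
theorem lap_mul_zero {X : Dat n} (hX : X.Ok) {u : E n → ℝ} (hu : Smooth u) {x : E n}
    (hx : X.ρ < ‖x‖) (h : lap X.g u x = 0) : lap (eu n) (fun y => X.U y * u y) x = 0 := by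
  have U0 : ∀ x, 0 < X.U x := fun x => by linarith [(hX.Ub x).1]
  rw [Dat.g, hX.met.lap_cf hX.dim U0] at h
  rw [← hX.flat.lap_eq hx, hX.met.lap_mul_wl (hX.smU.c2 x) (hu.c2 x) (U0 x).ne', hX.harm x hx.le,
    (mul_eq_zero.1 h).resolve_left (Real.rpow_pos_of_pos (U0 x) _).ne']
  simp

/-- the expansions of `u` and of `U u` -/
theorem asq {X : Dat n} (hX : X.Ok) {u : E n → ℝ} (hu : Smooth u)
    (lim : Tendsto u (cocompact (E n)) (𝓝 1)) {R : ℝ} (h : ∀ x, R ≤ ‖x‖ → lap X.g u x = 0) :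
    ∃ β, Asy u 1 β ∧ Asy (fun x => X.U x * u x) 1 (X.β₁ + β) := by
  have hn := hX.dim
  have s1 : Smooth fun x => X.U x * u x := ContDiff.mul hX.smU hu
  have l1 : Tendsto (fun x => X.U x * u x) (cocompact (E n)) (𝓝 1) := by
    simpa using (AsyF.lim1 hn hX.asy).mul lim
  obtain ⟨R₁, h1⟩ := Y.SchX.to_far (l1.eventually (ball_mem_nhds 1 one_pos))
  obtain ⟨C, hC⟩ := newt n hn
  obtain ⟨β, hβ, -⟩ := hC _ 1 (max (max R R₁) (max (X.ρ + 1) 1)) 1 0
    ((le_max_right _ _).trans (le_max_right _ _)) s1 (fun x hx => by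
      simp only [max_le_iff] at hx
      rw [lap_mul_zero hX hu (by linarith [hx.2.1]) (h x hx.1.1), abs_zero, zero_mul]
      exact ⟨(show |X.U x * u x - 1| < 1 from h1 x hx.1.2).le, le_rfl⟩) l1
  exact ⟨β - X.β₁, asy_div hn hX.smU hu (fun x => by linarith [(hX.Ub x).1]) hX.asy hβ,
    by rwa [add_sub_cancel]⟩

end Vale.Agent.P366Y
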