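import Vale.Agent.P366Y.Sk2
import Vale.Agent.P366Y.J.Defs2
import Vale.Agent.P366Y.F.Defs
import Vale.Agent.P366Y.C.Defs2

/-!
# P366Y: the statements which join the blocks
-/

open MeasureTheory Metric Filter Topology Set
open scoped ContDiff ENNReal
open Vale.Agent.P366.Stmt Vale.Agent.P366Z

noncomputable section

namespace Vale.Agent.P366Y

/-- the function `f` after the cut -/
def fh {n : ℕ} (X : Dat n) (f : E n → ℝ) (x : E n) : ℝ := rc (X.R + 5) x * f x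

/-- the factors of the prescribed curvature which depend on `u` -/
def th3 (P : Pa) (um : ℝ) : Fin 3 → ℝ → ℝ :=
  ![fun _ => 1, P.βf, fun z => Real.smoothTransition (z - um)]

/-- the factors of the prescribed curvature which depend on the point -/
def lm3 {n : ℕ} (X : Dat n) (P : Pa) (c : Cu) (ψ f : E n → ℝ) (x : E n) : Fin 3 → ℝ :=
  ![rc (X.R + 7) x * c.σ₀ + (1 - rc (X.R + 7) x) * scal X.g x -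
      c.A * Real.smoothTransition (4 * f x ^ 2 / P.F₀ ^ 2 - 1),
    rc X.ρ x * flo X P c.cY ψ f x + c.A * Real.smoothTransition (4 * f x ^ 2 / P.F₀ ^ 2 - 1),
    -(rc X.ρ x * c.A')]

theorem la_eq {n : ℕ} (X : Dat n) (P : Pa) (c : Cu) (ψ f : E n → ℝ) (x : E n) (z : ℝ) :
    F.La (th3 P c.um) (lm3 X P c ψ f x) z = Lam X P c ψ f x z := by
  simp only [F.La, th3, lm3, Lam, Fin.sum_univ_three, Matrix.cons_val_zero, Matrix.cons_val_one,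
    Matrix.cons_val]
  ring

/-- **GBF**: the cut function and the metric -/
def GBF : Prop := ∀ (n : ℕ) (X : Dat n) (P : Pa) (f u : E n → ℝ), X.Ok → P.Ok → Smooth f →
  Smooth u → F.Wb P.φ ∧ Smooth (fh X f) ∧ Smooth (wp X P u) ∧
    gb X.g (wp X P u) (fh X f) = gb X.g (fun y => P.φ (u y)) (fh X f) ∧
    ∀ x, X.ρ ≤ ‖x‖ → cl (gb X.g (fun y => P.φ (u y)) (fh X f)) u x = -(4 * gam n) * lap X.g u x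

/-- **LAM**: the signs of the prescribed curvature -/
def LAM : Prop := ForP fun _ X P => ∀ (c : Cu) A ψ f, 0 ≤ c.cY → 0 ≤ c.A' → 2 ≤ c.um → Ps X P A ψ →
  Smooth f → ∀ x z, (X.ρ ≤ ‖x‖ → z < 1 - 2 * P.η → 0 ≤ Lam X P c ψ (fh X f) x z) ∧
    (X.ρ ≤ ‖x‖ → c.um + 1 < z → Lam X P c ψ (fh X f) x z ≤ 0) ∧
    (X.ρ + 1 ≤ ‖x‖ → Lam X P c ψ (fh X f) x z = 0) ∧
    (|fh X f x| ≤ P.F₀ / 2 → (‖x‖ ≤ X.ρ + 1 → z ≤ c.um) →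
      rc (X.R + 7) x * c.σ₀ + (1 - rc (X.R + 7) x) * scal X.g x ≤ Lam X P c ψ (fh X f) x z)

/-- **NL**: the nonlocal coefficients -/
def NL : Prop := ForP fun n X P => ∀ θ ∈ Ioo (0 : ℝ) 1, ∀ (K A : ℝ)
  (ψ f : (E n → ℝ) → E n → ℝ),
  (∀ h, Continuous h → Ps X P A (ψ h) ∧ Smooth (f h) ∧ C2H θ K (f h)) →
  (∀ e > (0 : ℝ), ∃ d > (0 : ℝ), ∀ h h', Continuous h → Continuous h' →
    (∀ x, ‖x‖ ≤ X.ρ → |h x - h' x| ≤ d) → ∀ x, |ψ h x - ψ h' x| ≤ e ∧ |f h x - f h' x| ≤ e ∧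
      ‖D1 (f h) x - D1 (f h') x‖ ≤ e ∧ ‖D2 (f h) x - D2 (f h') x‖ ≤ e) →
  ∃ H : ℝ, (∀ h, Continuous h → ∀ x, ‖D1 (fh X (f h)) x‖ ≤ H ∧ ‖D2 (fh X (f h)) x‖ ≤ H) ∧
    ∀ c : Cu, ∃ A', F.Nl X.ρ θ A' (fun h => D1 (fh X (f h))) ∧
      F.Nl X.ρ θ A' (fun h => D2 (fh X (f h))) ∧
      F.Nl X.ρ θ A' fun h => lm3 X P c (ψ h) (fh X (f h))

/-- **FLO**: the floor -/
def FLO : Prop := ∀ (n : ℕ) (X : Dat n) (CK : ℝ), X.Ok → ∃ cY ≥ (0 : ℝ), ∃ C : ℝ, ∀ P,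
  Adm X CK C P → ∀ M θ K₀ : ℝ, ∃ ε > (0 : ℝ), ∀ ε' ≤ ε, ∀ A ≥ (1 : ℝ), ∀ K ψ f, Ps X P A ψ →
    J.Jk X P M θ K₀ ε' A K ψ f → ∀ c : Cu, c.cY = cY → 0 ≤ c.σ₀ → 2 ≤ c.um → ∀ u, Smooth u →
    ∀ x, ‖x‖ ≤ X.ρ → IsLocalMin u x → u x < 1 - 2 * P.η →
      scal (gb X.g (fun y => P.φ (u y)) (fh X f)) x < Lam X P c ψ (fh X f) x (u x)

/-- **HIC**: the ceiling -/
def HIC : Prop := ∀ (n : ℕ) (X : Dat n) (P : Pa), X.Ok → P.Ok → ∀ σ₀ A cY H : ℝ, 0 ≤ A →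
  ∃ A' ≥ (0 : ℝ), ∀ um ≥ (2 : ℝ), ∀ ψ f u x, Smooth f → Smooth u → ‖D1 f x‖ ≤ H → ‖D2 f x‖ ≤ H →
    ‖x‖ ≤ X.ρ → um + 1 < u x →
      Lam X P ⟨σ₀, A, cY, um, A'⟩ ψ f x (u x) < scal (gb X.g (fun y => P.φ (u y)) f) x

/-- **TST**: the hypotheses of the test hold; the small scale is `δ = a / A` -/
def TST : Prop := ∀ (n : ℕ) (X : Dat n) (CK : ℝ), X.Ok → ∃ σ₀ > (0 : ℝ), ∃ A₁ ≥ (0 : ℝ),
  ∀ cY ≥ (0 : ℝ), ∃ C₀ : ℝ, ∀ P, Adm X CK C₀ P → ∀ M θ K₀ : ℝ, ∀ a > (0 : ℝ), ∃ ε > (0 : ℝ),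
    ∃ B ≥ (1 : ℝ), ∃ h > (0 : ℝ), ∃ A₀ : ℝ, ∀ ε' ≤ ε, ∀ A ≥ A₀, ∀ K ψ f u um β, ∀ A' ≥ (0 : ℝ),
      Ps X P A ψ → J.Jk X P M θ K₀ ε' A K ψ f → (∀ x, P.φ (u x) ≤ ψ x) →
      (∀ x, ‖x‖ ≤ X.R + 4 → (∀ y ∈ ball x (2 * (a / A)), u y ≤ u x + h) →
        ψ x ≤ P.φ (u x) + 2 * P.lam * h) → Smooth u → (∀ x, 1 - 2 * P.η ≤ u x) →
      (∀ x, cl (gb X.g (fun y => P.φ (u y)) (fh X f)) u x =
        Lam X P ⟨σ₀, A₁, cY, um, A'⟩ ψ (fh X f) x (u x) * u x) → Asy u 1 β →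
      ∃ T lam Λ ϑ, C.Tst X.g X.K (fh X f) T u X.U lam Λ ϑ P.φ B 2 h (4 * (a / A)) X.ρ β X.β₁ ∧
        ∫ x, ϑ x ≤ 4 * gam n * (n - 2) * omega n * P.η

/-- **CAP**: the ceiling is not reached -/
def CAP : Prop := ∀ (n : ℕ) (B k₀ h : ℝ), 3 ≤ n → 1 ≤ B → 0 < h → ∃ r₀ > (0 : ℝ),
  ∀ r ∈ Ioc 0 r₀, ∀ ρ Θ b : ℝ, ∃ um : ℝ, ∀ (g K : Field n) (f T u U lam Λ ϑ : E n → ℝ) (F : ℝ → ℝ)
    (R β β' : ℝ), C.Tst g K f T u U lam Λ ϑ F B k₀ h r R β β' → ∫ x, ϑ x ≤ Θ → -b ≤ β →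
    ∀ x, ‖x‖ ≤ ρ → u x ≤ um

/-- **SOL** -/
def SOL : Prop := ∀ (n : ℕ) (X : Dat n), X.Ok → ∀ η ∈ Ioc (0 : ℝ) (1 / 16), ∃ σ₀ > (0 : ℝ),
  ∀ ℓ : ℝ, ∃ w f u φ₀ F₀ β, Sol X σ₀ η ℓ w f u φ₀ F₀ β

end Vale.Agent.P366Y
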