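import Vale.Agent.P366Y.Flr0
import Vale.Agent.P366Y.Sk3

/-!
# P366Y, row FLO: the floor
-/

open MeasureTheory Metric Filter Topology Set
open scoped ContDiff ENNReal
open Vale.Agent.P366.Stmt Vale.Agent.P366Z

noncomputable section

namespace Vale.Agent.P366Y

namespace FlrH

open J

variable {n : ℕ} {f v ψ : E n → ℝ} {x : E n} {X : Dat n} {P : Pa}

theorem scal_le (hX : X.Ok) (hv : Smooth v) (h0 : ∀ y, 0 < v y) (hf : Smooth f)
    (hm : IsLocalMin v x) {lam Λ : ℝ} (hl : v x ^ 2 ≤ lam) (Λ0 : 0 ≤ Λ)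
    (hΛ : normSq X.g (C.rc X.g) x ≤ Λ ^ 2) : scal (gb X.g v f) x ≤ scal X.g x + 2 * Λ +
      (1 + lam * ip X.g f f x) / (1 + v x ^ 2 * ip X.g f f x) *
        ((v x * C.gt X.g (hess X.g f) f lam x) ^ 2 / (1 + v x ^ 2 * ip X.g f f x)) := by
  have hg := mg hX
  have h := C.flp n X.g v f x lam Λ hg hv hf (h0 x) hm hl Λ0
    (abs_le.1 (b2_le hg ((C.RciH.sy_rc hg).sy x) Λ0 hΛ f)).1
  rw [← C.rb_ n X.g v f hg hv hf h0 x, div_mul_eq_mul_div (v x), div_pow, C.GbH.ww_sq hg] at h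
  exact h

theorem inner_le {C₀ C₁ M θ K₀ ε A K Λ : ℝ} (h : Cx X P C₁) (hB : P.Big (2 * C₀)) (C1 : 1 ≤ C₀)
    (hψ : Ps X P A ψ) (hf : Jk X P M θ K₀ ε A K ψ f) (hx : ‖x‖ ≤ X.R + 7)
    (hG : Ga P C₀ (ψ x) (ip X.g f f x)) (hv : Smooth v) (h0 : ∀ y, 0 < v y)
    (hm : IsLocalMin v x) (e : v x = P.φ₀) (Λ0 : 0 ≤ Λ) (hΛ : normSq X.g (C.rc X.g) x ≤ Λ ^ 2) :
    scal (gb X.g v f) x ≤ scal X.g x + 2 * Λ + (3 * P.CK + 2 * X.p₀) ^ 2 *
      (io P (ψ x) (ip X.g f f x) * (1 + P.φ₀ ^ 2 * ip X.g f f x))⁻¹ := by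
  have t0 := (mg h.hX).ip_nonneg f x
  have L1 := h.hP.pos.2.1
  have i0 : 0 < io P (ψ x) (ip X.g f f x) := lt_of_lt_of_le (by positivity) hG.io1
  have a1 := lam_lo h.hP hB C1 (hψ.bd x) t0 hG
  have a2 := gauge_le h hψ hf hx hG
  have a3 := scal_le (lam := P.Gs (ψ x) (ip X.g f f x) / io P (ψ x) (ip X.g f f x)) h.hX hv h0
    hf.sm hm (by rw [e, le_div_iff₀ i0]; exact a1) Λ0 hΛ
  have e1 : 1 + P.Gs (ψ x) (ip X.g f f x) / io P (ψ x) (ip X.g f f x) * ip X.g f f x =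
      (io P (ψ x) (ip X.g f f x))⁻¹ := by
    have e0 : io P (ψ x) (ip X.g f f x) = 1 - ip X.g f f x * P.Gs (ψ x) (ip X.g f f x) := rfl
    field_simp
    linarith
  have e2 : P.Gs (ψ x) (ip X.g f f x) / io P (ψ x) (ip X.g f f x) *
      C.b2 X.g (hess X.g f) f f x / (io P (ψ x) (ip X.g f f x))⁻¹ =
      P.Gs (ψ x) (ip X.g f f x) * C.b2 X.g (hess X.g f) f f x := by field_simp
  rw [C.gt, e1, e2, e] at a3
  have W0 : 0 < 1 + P.φ₀ ^ 2 * ip X.g f f x := by positivity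
  refine a3.trans (add_le_add le_rfl ?_)
  rw [mul_comm ((3 * P.CK + 2 * X.p₀) ^ 2), mul_inv, ← div_eq_mul_inv]
  refine mul_le_mul_of_nonneg_left ((div_le_iff₀ W0).2 ?_) (by positivity)
  exact a2.trans_eq (mul_comm _ _)

theorem num {N Λ L k e A H t t' : ℝ} (N1 : 1 ≤ N) (Λ1 : 1 ≤ Λ) (L1 : 1 ≤ L) (k0 : 0 ≤ k)
    (e0 : 0 ≤ e) (A1 : 1 ≤ A) (he : 16 * L * N ^ 5 * Λ ^ 5 * (k + 4) * (A ^ 2 * e) ≤ 1)
    (hH : H = k * A + N * (Λ * e) + 3 * Λ * e) (t0 : 0 ≤ t) (t1 : 0 ≤ t') (ht : t ≤ N ^ 2 * (Λ * e * e))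
    (ht' : t' ≤ N ^ 2 * (Λ * (2 * Λ * e) * (2 * Λ * e))) :
    N ^ 2 * Λ * H * (4 * L * t) ≤ 1 ∧ N ^ 2 * Λ * H * t' ≤ 1 ∧ N ^ 2 * (Λ * (3 * Λ * e)) ≤ 1 ∧
      t ≤ 1 := by
  obtain ⟨Z, hZ⟩ : ∃ Z, Z = 16 * L * N ^ 5 * Λ ^ 5 * (k + 4) := ⟨_, rfl⟩
  rw [← hZ] at he
  have N0 : 0 < N := by linarith
  have Λ0 : 0 < Λ := by linarith
  have Z1 : 1 * 1 * 1 * 1 * 1 ≤ Z := by
    rw [hZ]
    gcongr
    · norm_num
    · exact one_le_pow₀ N1
    · exact one_le_pow₀ Λ1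
    · linarith
  have A2 : A ≤ A ^ 2 := by nlinarith
  have a1 : Z * (A * e) ≤ 1 := le_trans (by gcongr) he
  have a2 : Z * e ≤ 1 := le_trans (by gcongr; exact le_mul_of_one_le_left e0 A1) a1
  have e1 : e ≤ 1 := by nlinarith
  have a3 : H ≤ N * Λ * (k + 4) * A := by
    have b1 : k * A ≤ N * Λ * k * A := by
      gcongr
      exact le_mul_of_one_le_left k0 (by nlinarith)
    have b2 : N * (Λ * e) ≤ N * (Λ * A) := by gcongr; linarith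
    have b3 : 1 * (3 * Λ * e) ≤ N * (3 * Λ * A) := by gcongr; linarith
    rw [hH]
    linarith
  have H0 : 0 ≤ H := by rw [hH]; positivity
  have p1 : Λ ^ 3 ≤ Λ ^ 5 := pow_le_pow_right₀ Λ1 (by norm_num)
  have p2 : Λ ^ 2 ≤ Λ ^ 5 := pow_le_pow_right₀ Λ1 (by norm_num)
  have p3 : N ^ 2 ≤ N ^ 5 := pow_le_pow_right₀ N1 (by norm_num)
  have p4 : Λ ^ 1 ≤ Λ ^ 5 := pow_le_pow_right₀ Λ1 (by norm_num)
  refine ⟨?_, ?_, ?_, ?_⟩
  · calc _ ≤ N ^ 2 * Λ * (N * Λ * (k + 4) * A) * (4 * L * (N ^ 2 * (Λ * e * e))) := by gcongr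
      _ = 4 * L * N ^ 5 * Λ ^ 3 * (k + 4) * (A * e) * e := by ring
      _ ≤ 16 * L * N ^ 5 * Λ ^ 5 * (k + 4) * (A * e) * 1 := by gcongr; norm_num
      _ ≤ 1 := by rw [← hZ, mul_one]; exact a1
  · calc _ ≤ N ^ 2 * Λ * (N * Λ * (k + 4) * A) * (N ^ 2 * (Λ * (2 * Λ * e) * (2 * Λ * e))) := by
          gcongr
      _ = 4 * 1 * N ^ 5 * Λ ^ 5 * (k + 4) * (A * e) * e := by ring
      _ ≤ 16 * L * N ^ 5 * Λ ^ 5 * (k + 4) * (A * e) * 1 := by gcongr; norm_num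
      _ ≤ 1 := by rw [← hZ, mul_one]; exact a1
  · calc _ = 3 * 1 * N ^ 2 * Λ ^ 2 * 1 * e := by ring
      _ ≤ 16 * L * N ^ 5 * Λ ^ 5 * (k + 4) * e := by gcongr <;> linarith
      _ ≤ 1 := by rw [← hZ]; exact a2
  · calc _ ≤ N ^ 2 * (Λ * e * 1) := ht.trans (by gcongr)
      _ = 1 * 1 * N ^ 2 * Λ ^ 1 * 1 * e := by ring
      _ ≤ 16 * L * N ^ 5 * Λ ^ 5 * (k + 4) * e := by gcongr <;> linarith
      _ ≤ 1 := by rw [← hZ]; exact a2

theorem cut_le {C₀ C₁ M θ K₀ ε A K Λ : ℝ} (h : Cx X P C₁) (hψ : Ps X P A ψ)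
    (hf : Jk X P M θ K₀ ε A K ψ f) (x1 : X.R + 5 ≤ ‖x‖) (x2 : ‖x‖ ≤ X.R + 6)
    (hG : Ga P C₀ (ψ x) (ip X.g f f x)) (hv : Smooth v) (h0 : ∀ y, 0 < v y)
    (hm : IsLocalMin v x) (ev : v x = P.φ₀) (Λ1 : 1 ≤ Λ) (A1 : 1 ≤ A)
    (hΛ : normSq X.g (C.rc X.g) x ≤ Λ ^ 2) (b1 : ∀ i j, |up X.g i j x| ≤ Λ)
    (b2 : ∀ k i j, |chr X.g k i j x| ≤ Λ) (b3 : ∀ i, |pd i (rc (X.R + 5)) x| ≤ Λ)
    (b4 : ∀ i j, |hess X.g (rc (X.R + 5)) x i j| ≤ Λ)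
    (hε : 16 * P.L * n ^ 5 * Λ ^ 5 * (|K₀| + 4) * ε ≤ 1) :
    scal (gb X.g v (fh X f)) x ≤ scal X.g x + 2 * Λ + (2 * (3 * P.CK + 2 * X.p₀) + 3) ^ 2 := by
  have hg := mg h.hX
  have t0 := hg.ip_nonneg f x
  have L1 := h.hP.pos.2.1
  have K1 := h.hP.pos.2.2.2.2.2.2.2.2
  have p0 := h.hX.p0
  obtain ⟨φ0, φ1⟩ := h.hP.φ0
  have N1 : (1 : ℝ) ≤ n := by exact_mod_cast (by have := h.hX.dim; omega : 1 ≤ n)
  have Λ0 : 0 ≤ Λ := by linarith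
  have sχ := sm_rc (n := n) (X.R + 5)
  have sf : Smooth (fh X f) := ContDiff.mul sχ hf.sm
  obtain ⟨r0, r1⟩ := rc_mem (X.R + 5) x
  obtain ⟨y1, y2⟩ := hf.tiny x (by linarith) x2
  obtain ⟨e, he⟩ : ∃ e, e = ε / A ^ 2 := ⟨_, rfl⟩
  have A0 : 0 < A ^ 2 := by positivity
  have f1 : |f x| ≤ e := by rw [he, le_div_iff₀' A0]; exact y1
  have f2 : ∀ i, |pd i f x| ≤ e := fun i =>
    (norm_le_pi_norm (D1 f x) i).trans (by rw [he, le_div_iff₀' A0]; exact y2)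
  have e0 := (abs_nonneg _).trans f1
  have f3 : ∀ i j, |hess X.g f x i j| ≤ |K₀| * A + n * (Λ * e) := fun i j => by
    refine (abs_sub _ _).trans (add_le_add ?_ ?_)
    · exact (((norm_le_pi_norm (D2 f x i) j).trans (norm_le_pi_norm _ i)).trans (hf.d2 x)).trans
        (mul_le_mul_of_nonneg_right (le_abs_self _) (by linarith))
    · refine (Finset.abs_sum_le_sum_abs _ _).trans ((Finset.sum_le_sum fun k _ =>
        (abs_mul _ _).trans_le (mul_le_mul (b2 k i j) (f2 k) (abs_nonneg _) Λ0)).trans ?_)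
      simp
  have m1 : ∀ {a b : ℝ}, |a| ≤ Λ → |b| ≤ e → |a * b| ≤ Λ * e := fun h1 h2 =>
    (abs_mul _ _).trans_le (mul_le_mul h1 h2 (abs_nonneg _) Λ0)
  have m2 : ∀ a : ℝ, |rc (X.R + 5) x * a| ≤ |a| := fun a => by
    rw [abs_mul, abs_of_nonneg r0]
    exact mul_le_of_le_one_left (abs_nonneg _) r1
  obtain ⟨Rm, hR⟩ : ∃ Rm : Field n, Rm = fun x i j => pd i (rc (X.R + 5)) x * pd j f x +
      pd j (rc (X.R + 5)) x * pd i f x + f x * hess X.g (rc (X.R + 5)) x i j := ⟨_, rfl⟩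
  have g1 : ∀ i j, hess X.g (fh X f) x i j = rc (X.R + 5) x * hess X.g f x i j + Rm x i j :=
    fun i j => hR ▸ hess_mul sχ hf.sm i j
  have g2 : ∀ i j, |Rm x i j| ≤ 3 * Λ * e := fun i j => by
    have k := m1 (b4 i j) f1
    rw [mul_comm] at k
    rw [hR]
    linarith [abs_add_three (pd i (rc (X.R + 5)) x * pd j f x) (pd j (rc (X.R + 5)) x * pd i f x)
      (f x * hess X.g (rc (X.R + 5)) x i j), m1 (b3 i) (f2 j), m1 (b3 j) (f2 i)]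
  obtain ⟨H, hH⟩ : ∃ H, H = |K₀| * A + n * (Λ * e) + 3 * Λ * e := ⟨_, rfl⟩
  have H0 : 0 ≤ H := by rw [hH]; positivity
  have g3 : ∀ i j, |hess X.g (fh X f) x i j| ≤ H := fun i j => by
    rw [g1, hH]
    exact (abs_add_le _ _).trans (add_le_add ((m2 _).trans (f3 i j)) (g2 i j))
  have g4 : ∀ i, |pd i (fh X f) x| ≤ 2 * Λ * e := fun i => by
    unfold fh
    rw [pd_mul (sχ.diff x) (hf.sm.diff x)]
    have k := mul_le_mul_of_nonneg_right Λ1 e0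
    linarith [abs_add_le (pd i (rc (X.R + 5)) x * f x) (rc (X.R + 5) x * pd i f x), m1 (b3 i) f1,
      m2 (pd i f x), f2 i]
  obtain ⟨n1, n2, n3, n4⟩ := num N1 Λ1 L1 (abs_nonneg K₀) e0 A1
    (by rwa [he, mul_div_cancel₀ _ A0.ne']) hH t0 (hg.ip_nonneg _ x) (ip_le b1 f2 Λ0 e0) (ip_le b1 g4 Λ0 (by positivity))
  have c1 := (b2_le hg (hg.hess_sy (sf.c2 x)) (by positivity) (nsq_le b1 g3 Λ0 H0)
    (fh X f)).trans n2
  have c2 := b2_le hg (hg.hess_sy (hf.sm.c2 x)) (by positivity) (nsq_le b1 (fun i j =>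
    (f3 i j).trans (show _ ≤ H by rw [hH]; exact le_add_of_nonneg_right (by positivity))) Λ0 H0) f
  have c3 : ip X.g f f x * P.Gs (ψ x) (ip X.g f f x) ≤ 4 * P.L * ip X.g f f x := by
    have k := hG.io1
    have k1 : 0 ≤ 4 * P.L * ip X.g f f x := by positivity
    have k2 : 1 - 4 * P.L * ip X.g f f x ≤ 1 / (1 + 4 * P.L * ip X.g f f x) := by
      rw [le_div_iff₀ (by positivity)]
      nlinarith
    rw [io] at k
    linarith
  have c4 : |P.Gs (ψ x) (ip X.g f f x) * C.b2 X.g (hess X.g f) f f x| ≤ 1 := by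
    rw [abs_mul, abs_of_nonneg hG.Gs0]
    refine (mul_le_mul_of_nonneg_left c2 hG.Gs0).trans (le_trans ?_ n1)
    rw [mul_comm, mul_assoc]
    exact mul_le_mul_of_nonneg_left c3 (by positivity)
  have c5 := (tr_le b1 g2 Λ0).trans n3
  have c6 : tr X.g (hess X.g (fh X f)) x = rc (X.R + 5) x * tr X.g (hess X.g f) x + tr X.g Rm x := by
    simp only [tr, g1, Finset.mul_sum, ← Finset.sum_add_distrib]
    exact Finset.sum_congr rfl fun i _ => Finset.sum_congr rfl fun j _ => by ring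
  have c7 := abs_le_of_sq_le_sq ((gauge_le h hψ hf (by linarith) hG).trans
    (show _ ≤ (2 * (3 * P.CK + 2 * X.p₀)) ^ 2 by
      rw [mul_pow 2]
      refine mul_le_mul_of_nonneg_right ?_ (sq_nonneg _)
      nlinarith [mul_le_mul (pow_le_one₀ φ0.le φ1 (n := 2)) n4 t0 zero_le_one])) (by positivity)
  have t1 := hg.ip_nonneg (fh X f) x
  have W1 : 1 ≤ 1 + P.φ₀ ^ 2 * ip X.g (fh X f) (fh X f) x := le_add_of_nonneg_right (by positivity)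
  have a3 := scal_le (lam := P.φ₀ ^ 2) h.hX hv h0 sf hm (by rw [ev]) Λ0 hΛ
  rw [ev, div_self (by linarith), one_mul, C.gt, c6] at a3
  refine a3.trans (add_le_add le_rfl ((div_le_self (sq_nonneg _) W1).trans
    (sq_le_sq' (abs_le.1 ?_).1 (abs_le.1 ?_).2)))
  all_goals
    generalize tr X.g (hess X.g f) x = a at c7
    generalize P.Gs (ψ x) (ip X.g f f x) * C.b2 X.g (hess X.g f) f f x = b at c7 c4
    generalize tr X.g Rm x = c at c5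
    have m3 : ∀ a : ℝ, |P.φ₀ * a| ≤ |a| := fun a => by
      rw [abs_mul, abs_of_nonneg φ0.le]
      exact mul_le_of_le_one_left (abs_nonneg _) φ1
    have d1 : |P.φ₀ ^ 2 * C.b2 X.g (hess X.g (fh X f)) (fh X f) (fh X f) x /
        (1 + P.φ₀ ^ 2 * ip X.g (fh X f) (fh X f) x)| ≤ 1 := by
      rw [abs_div, abs_of_nonneg (zero_le_one.trans W1)]
      refine (div_le_self (abs_nonneg _) W1).trans ?_
      rw [pow_two, mul_assoc]
      exact ((m3 _).trans (m3 _)).trans c1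
    generalize P.φ₀ ^ 2 * C.b2 X.g (hess X.g (fh X f)) (fh X f) (fh X f) x /
        (1 + P.φ₀ ^ 2 * ip X.g (fh X f) (fh X f) x) = d at d1
    have e1 : P.φ₀ * (rc (X.R + 5) x * a + c - d) = rc (X.R + 5) x * (P.φ₀ * (a - b)) +
      rc (X.R + 5) x * (P.φ₀ * b) + P.φ₀ * (c - d) := by ring
    rw [e1]
    linarith [abs_add_three (rc (X.R + 5) x * (P.φ₀ * (a - b))) (rc (X.R + 5) x * (P.φ₀ * b))
      (P.φ₀ * (c - d)), m2 (P.φ₀ * (a - b)), m2 (P.φ₀ * b), m3 b, m3 (c - d), abs_sub c d]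

end FlrH

open FlrH J in
/-- **FLO** -/
theorem flo_ : FLO := by
  intro n X CK hX
  obtain ⟨C₀, C1, hG⟩ := ga
  obtain ⟨Λ, Λ1, hΛ⟩ := ball_bd hX (sm_rc (X.R + 5)) X.ρ
  obtain ⟨c₀, hc⟩ : ∃ c, c = (2 * (3 * CK + 2 * X.p₀) + 3) ^ 2 := ⟨_, rfl⟩
  have c0 : 0 ≤ c₀ := hc ▸ sq_nonneg _
  refine ⟨c₀ + 4 * Λ + 1, by positivity, 2 * C₀, fun P hP M θ K₀ => ?_⟩
  have L1 := hP.ok.pos.2.1
  have K1 := hP.ok.pos.2.2.2.2.2.2.2.2
  have n0 : (0 : ℝ) < n := by have := hX.dim; positivity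
  refine ⟨1 / (16 * P.L * n ^ 5 * Λ ^ 5 * (|K₀| + 4)), by positivity,
    fun ε hε A A1 K ψ f hψ hf c e1 σ0 um u hu x hx _ hlt => ?_⟩
  rw [le_div_iff₀' (by positivity)] at hε
  have hC : Cx X P (2 * C₀) := ⟨hX, hP.ok, hP.fo, hP.big⟩
  have hG' : ∀ w, Ga P C₀ (ψ x) (ip X.g w w x) := fun w =>
    hG P hP.ok (J.big_mono hP.ok hP.big (by linarith)) _ (hψ.bd x) _ ((mg hX).ip_nonneg w x)
  obtain ⟨η0, η1⟩ := hP.ok.η0
  have φ0 := hP.ok.φ0.1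
  have R1 := hX.R1
  have p0 := hX.p0
  have sv : Smooth fun y => P.φ (u y) := hP.ok.smφ.comp hu
  have v0 : ∀ y, 0 < P.φ (u y) := fun y => φ0.trans_le (hP.ok.φb _).1
  have ev : P.φ (u x) = P.φ₀ := hP.ok.φlo _ (by linarith)
  have vm : IsLocalMin (fun y => P.φ (u y)) x := .of_forall fun y => ev.trans_le (hP.ok.φb _).1
  obtain ⟨s1, s2, b1, b2, b3, b4⟩ := hΛ x hx
  obtain ⟨r0, r1⟩ := rc_mem (X.R + 7) x
  obtain ⟨s3, s4⟩ := abs_le.1 s1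
  have l1 : -Λ + flo X P (c₀ + 4 * Λ + 1) ψ (fh X f) x ≤ Lam X P c ψ (fh X f) x (u x) := by
    rw [Lam, hP.ok.β1 _ hlt.le, Real.smoothTransition.zero_of_nonpos (by linarith : u x - c.um ≤ 0),
      rc_one (by linarith [hX.Rρ]) hx, e1]
    nlinarith [mul_nonneg r0 σ0, mul_le_mul_of_nonneg_left s3 (sub_nonneg.2 r1),
      mul_nonneg r0 (zero_le_one.trans Λ1)]
  refine lt_of_lt_of_le ?_ l1
  have t1 := (mg hX).ip_nonneg (fh X f) x
  have k0 : 0 < io P (ψ x) (ip X.g (fh X f) (fh X f) x) :=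
    lt_of_lt_of_le (by positivity) (hG' _).io1
  rcases lt_or_ge ‖x‖ (X.R + 5) with x1 | x1
  · have e2 : fh X f =ᶠ[𝓝 x] f := by
      filter_upwards [(isOpen_lt continuous_norm continuous_const).mem_nhds x1] with y hy
      rw [fh, rc_one (by linarith) (le_of_lt hy), one_mul]
    have e3 : gb X.g (fun y => P.φ (u y)) (fh X f) =ᶠ[𝓝 x] gb X.g (fun y => P.φ (u y)) f :=
      e2.eventuallyEq_nhds.mono fun y hy => by
        funext i j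
        simp only [gb, pd_congr hy]
    have a1 := inner_le hC hP.big C1 hψ hf (by linarith) (hG' f) sv v0 vm ev (by linarith) s2
    rw [ip_congr e2 e2] at k0 t1
    rw [scal_of_ev e3, flo, ip_congr e2 e2, rc_one (by linarith) (by linarith : ‖x‖ ≤ X.R + 7),
      rc_one (by linarith) (by linarith : ‖x‖ ≤ X.R + 6), one_mul, one_mul,
      mul_comm (P.Gs _ _)]
    change _ < _ + _ * (1 + (io P (ψ x) (ip X.g f f x) * _)⁻¹)
    have a2 : 0 ≤ (io P (ψ x) (ip X.g f f x) * (1 + P.φ₀ ^ 2 * ip X.g f f x))⁻¹ := by positivity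
    have a3 : (3 * P.CK + 2 * X.p₀) ^ 2 ≤ c₀ + 4 * Λ + 1 := by
      rw [hc, ← hP.ck]
      nlinarith
    linarith [mul_le_mul_of_nonneg_right a3 a2]
  · have a1 : c₀ + 4 * Λ + 1 ≤ flo X P (c₀ + 4 * Λ + 1) ψ (fh X f) x := by
      refine le_mul_of_one_le_right (by positivity) (le_add_of_nonneg_right (inv_nonneg.2
        (mul_nonneg ?_ (by positivity))))
      have a2 := mul_le_mul_of_nonneg_right r1 (mul_nonneg (hG' (fh X f)).Gs0 t1)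
      rw [io] at k0
      linarith
    rcases le_or_gt ‖x‖ (X.R + 6) with x2 | x2
    · have a2 := cut_le hC hψ hf x1 x2 (hG' f) sv v0 vm ev Λ1 A1 s2 b1 b2 b3 b4 hε
      rw [hP.ck, ← hc] at a2
      linarith
    · have e2 : fh X f =ᶠ[𝓝 x] fun _ => 0 := by
        filter_upwards [(isOpen_lt continuous_const continuous_norm).mem_nhds x2] with y hy
        rw [fh, rc_zero (by linarith) (by linarith [show X.R + 6 < ‖y‖ from hy]), zero_mul]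
      have e3 : gb X.g (fun y => P.φ (u y)) (fh X f) =ᶠ[𝓝 x] X.g :=
        e2.eventuallyEq_nhds.mono fun y hy => by
          funext i j
          simp only [gb, pd_congr hy, pd_const, mul_zero, add_zero]
      rw [scal_of_ev e3]
      linarith

end Vale.Agent.P366Y
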