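import Vale.Agent.P366Y.J.Defs2
import Vale.Agent.P366Y.J.Ga
import Vale.Agent.P366Y.J.Alg
import Vale.Agent.P366Y.C.All

/-!
# P366Y: the curvature at the floor
-/

open MeasureTheory Metric Filter Topology Set
open scoped ContDiff ENNReal
open Vale.Agent.P366.Stmt Vale.Agent.P366Z

noncomputable section

namespace Vale.Agent.P366Y

namespace FlrH

open J

variable {n : ℕ} {g T : Field n} {f χ : E n → ℝ} {x : E n} {X : Dat n} {P : Pa}

theorem lam_lo {C y t : ℝ} (hP : P.Ok) (hB : P.Big (2 * C)) (C1 : 1 ≤ C) (hy : y ∈ Icc P.φ₀ 2)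
    (ht : 0 ≤ t) (h : Ga P C y t) : P.φ₀ ^ 2 * io P y t ≤ P.Gs y t := by
  obtain ⟨l1, hL, τ0, τ1, -, hM, -⟩ := hP.pos
  obtain ⟨φ0, φ1⟩ := hP.φ0
  obtain ⟨η0, η1⟩ := hP.η0
  have y0 : 0 < y := φ0.trans_le hy.1
  have y2 : P.φ₀ ^ 2 ≤ y ^ 2 := pow_le_pow_left₀ φ0.le hy.1 2
  have M0 : 0 < P.M₀ ^ 2 := by positivity
  rcases lt_or_ge t (P.M₀ ^ 2) with k | k
  · have a0 : 0 < 1 + P.L * y ^ 2 * t := by positivity
    have ev : P.G y =ᶠ[𝓝 t] fun s => Real.log (1 + P.L * y ^ 2 * s) := by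
      filter_upwards [Iio_mem_nhds k] with s hs
      have e : P.th s = 1 := Real.smoothTransition.one_of_one_le (by
        linarith [(div_le_one M0).2 (le_of_lt hs)])
      simp [Pa.G, e]
    have d := ((((hasDerivAt_id t).const_mul (P.L * y ^ 2)).const_add 1).log a0.ne').deriv
    have e : P.Gs y t = P.L * y ^ 2 / (1 + P.L * y ^ 2 * t) := by
      rw [Pa.Gs, ev.deriv_eq]
      simpa using d
    have e2 : io P y t = 1 / (1 + P.L * y ^ 2 * t) := by
      rw [io, e]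
      field_simp
      ring
    rw [e, e2, mul_one_div]
    exact div_le_div_of_nonneg_right (y2.trans (le_mul_of_one_le_left (sq_nonneg _) hL)) a0.le
  · have t0 : 0 < t := M0.trans_le k
    have L2 : 2 * C ≤ P.L := le_trans (le_mul_of_one_le_right (by linarith) l1) hB.b1
    have b3 := hB.b3
    have a1 : P.η * P.τ * P.φ₀ ^ 4 * P.M₀ ≤ 1 * 1 * P.φ₀ * P.M₀ := by
      gcongr
      · linarith
      · exact pow_le_of_le_one φ0.le φ1 (by norm_num)
    have a2 : 1 ≤ P.φ₀ * P.M₀ := by nlinarith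
    have a3 : 1 ≤ P.φ₀ ^ 2 * t := by
      have := mul_le_mul_of_nonneg_left k (sq_nonneg P.φ₀)
      nlinarith
    have i0 : 0 < io P y t := lt_of_lt_of_le (by positivity) h.io1
    have a4 : C * (1 + P.φ₀ ^ 2 * t) ≤ 1 + P.L * y ^ 2 * t := by
      have b1 : 2 * C * P.φ₀ ^ 2 * t ≤ P.L * y ^ 2 * t := by gcongr
      nlinarith
    have a5 := (mul_le_mul_of_nonneg_left a4 i0.le).trans h.io2
    have a6 : io P y t * (1 + P.φ₀ ^ 2 * t) ≤ 1 := by
      refine le_of_mul_le_mul_left ?_ (show 0 < C by linarith)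
      linarith
    refine le_of_mul_le_mul_left ?_ t0
    have e : t * P.Gs y t = 1 - io P y t := by rw [io]; ring
    rw [e]
    linarith

theorem b2_le (hg : Met g) (hT : ∀ i j, T x i j = T x j i) {N : ℝ} (N0 : 0 ≤ N)
    (hN : normSq g T x ≤ N ^ 2) (f : E n → ℝ) : |C.b2 g T f f x| ≤ N * ip g f f x := by
  obtain ⟨-, -, -, o4, o5, -⟩ := C.orth n g T f f x hg hT
  have t0 := hg.ip_nonneg f x
  refine abs_le_of_sq_le_sq (o5.trans ?_) (by positivity)
  have a := mul_le_mul_of_nonneg_right (o4.trans (mul_le_mul_of_nonneg_right hN t0)) t0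
  exact a.trans (le_of_eq (by ring))

theorem sum2_le {a : Fin n → Fin n → ℝ} {c : ℝ} (h : ∀ i j, |a i j| ≤ c) :
    |∑ i, ∑ j, a i j| ≤ n ^ 2 * c := by
  refine (Finset.abs_sum_le_sum_abs _ _).trans ((Finset.sum_le_sum fun i _ =>
    (Finset.abs_sum_le_sum_abs _ _).trans (Finset.sum_le_sum fun j _ => h i j)).trans (le_of_eq ?_))
  simp only [Finset.sum_const, Finset.card_univ, Fintype.card_fin, nsmul_eq_mul]
  ring

theorem nsq_le {Λ H : ℝ} (hΛ : ∀ i j, |up g i j x| ≤ Λ) (hH : ∀ i j, |T x i j| ≤ H) (Λ0 : 0 ≤ Λ)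
    (H0 : 0 ≤ H) : normSq g T x ≤ (n ^ 2 * Λ * H) ^ 2 := by
  refine (le_abs_self _).trans ((sum2_le fun i j => sum2_le (c := Λ * Λ * H * H) fun k l => ?_).trans
    (le_of_eq (by ring)))
  rw [abs_mul, abs_mul, abs_mul]
  gcongr <;> first | exact hΛ _ _ | exact hH _ _

theorem tr_le {Λ H : ℝ} (hΛ : ∀ i j, |up g i j x| ≤ Λ) (hH : ∀ i j, |T x i j| ≤ H) (Λ0 : 0 ≤ Λ) :
    |tr g T x| ≤ n ^ 2 * (Λ * H) :=
  sum2_le fun i j => by rw [abs_mul]; exact mul_le_mul (hΛ i j) (hH i j) (abs_nonneg _) Λ0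

theorem ip_le {Λ d : ℝ} (hΛ : ∀ i j, |up g i j x| ≤ Λ) (hd : ∀ i, |pd i f x| ≤ d) (Λ0 : 0 ≤ Λ)
    (d0 : 0 ≤ d) : ip g f f x ≤ n ^ 2 * (Λ * d * d) := by
  refine (le_abs_self _).trans (sum2_le fun i j => ?_)
  rw [abs_mul, abs_mul]
  gcongr <;> first | exact hΛ _ _ | exact hd _

theorem hess_mul (hχ : Smooth χ) (hf : Smooth f) (i j : Fin n) :
    hess g (fun y => χ y * f y) x i j = χ x * hess g f x i j +
      (pd i χ x * pd j f x + pd j χ x * pd i f x + f x * hess g χ x i j) := by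
  have e : ∀ k, pd k (fun y => χ y * f y) = fun y => pd k χ y * f y + χ y * pd k f y :=
    fun k => funext fun y => pd_mul (hχ.diff y) (hf.diff y) k
  simp only [hess, e]
  rw [pd_add (((hχ.pd j).diff x).fun_mul (hf.diff x)) ((hχ.diff x).fun_mul ((hf.pd j).diff x)),
    pd_mul ((hχ.pd j).diff x) (hf.diff x), pd_mul (hχ.diff x) ((hf.pd j).diff x)]
  simp only [mul_add, mul_sub, Finset.sum_add_distrib, Finset.mul_sum]
  have e1 : ∑ k, chr g k i j x * (pd k χ x * f x) = ∑ k, f x * (chr g k i j x * pd k χ x) :=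
    Finset.sum_congr rfl fun k _ => by ring
  have e2 : ∑ k, chr g k i j x * (χ x * pd k f x) = ∑ k, χ x * (chr g k i j x * pd k f x) :=
    Finset.sum_congr rfl fun k _ => by ring
  rw [e1, e2]
  ring

theorem pr2_am (g T : Field n) (f : E n → ℝ) (x : E n) (c : ℝ) :
    pr2 (am g x c (D1 f x)) (T x) = tr g T x - c * C.b2 g T f f x := by
  simp only [pr2, am, tr, C.b2, Finset.mul_sum, ← Finset.sum_sub_distrib]
  refine Finset.sum_congr rfl fun i _ => Finset.sum_congr rfl fun j _ => ?_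
  change (up g i j x - c * gr g f i x * gr g f j x) * T x i j = _
  ring

theorem cap_le (hX : X.Ok) (hP : P.Ok) (hF : P.For X) (s : ℝ) {z : ℝ} (hz : |z| ≤ 8 * P.F₀) :
    |cap X P s x z| ≤ 2 * P.CK + 2 * X.p₀ := by
  obtain ⟨r0, r1⟩ := rc_mem (X.R + 3) x
  obtain ⟨p0, p1⟩ := hX.pb x
  have q0 := hP.pos.2.2.2.2.2.2.1
  have q1 := hF.1
  have a1 : |Real.arctan (z / s)| ≤ 2 := abs_le.2
    ⟨by linarith [Real.neg_pi_div_two_lt_arctan (z / s), Real.pi_le_four],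
      by linarith [Real.arctan_lt_pi_div_two (z / s), Real.pi_le_four]⟩
  have a2 : 0 ≤ rc (X.R + 3) x * X.p x + (1 - rc (X.R + 3) x) * P.p₁ :=
    add_nonneg (mul_nonneg r0 p0) (mul_nonneg (by linarith) q0.le)
  have a3 : rc (X.R + 3) x * X.p x + (1 - rc (X.R + 3) x) * P.p₁ ≤ X.p₀ := by
    nlinarith [mul_le_mul_of_nonneg_left p1 r0, mul_le_mul_of_nonneg_left q1 (sub_nonneg.2 r1)]
  refine (abs_add_le _ _).trans (add_le_add (hP.Tb z hz) ?_)
  rw [abs_mul, abs_of_nonneg a2, mul_comm 2]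
  exact mul_le_mul a3 a1 (abs_nonneg _) hX.p0.le

/-- the trace of the gauge is bounded -/
theorem gauge_le {C₁ M θ K₀ ε A K : ℝ} {ψ : E n → ℝ} (h : Cx X P C₁) (hψ : Ps X P A ψ)
    (hf : Jk X P M θ K₀ ε A K ψ f) (hx : ‖x‖ ≤ X.R + 7) {C₀ : ℝ}
    (hG : Ga P C₀ (ψ x) (ip X.g f f x)) :
    (P.φ₀ * (tr X.g (hess X.g f) x - P.Gs (ψ x) (ip X.g f f x) * C.b2 X.g (hess X.g f) f f x)) ^ 2 ≤
      (1 + P.φ₀ ^ 2 * ip X.g f f x) * (3 * P.CK + 2 * X.p₀) ^ 2 := by
  have hg := mg h.hX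
  have t0 := hg.ip_nonneg f x
  have φ0 := h.hP.φ0.1
  have L1 := h.hP.pos.2.1
  have K1 := h.hP.pos.2.2.2.2.2.2.2.2
  have e := hf.eqn x hx
  rw [ag_eq, rc_one (by linarith [h.hX.R1]) hx, one_mul] at e
  change pr2 (am X.g x (P.Gs (ψ x) (ip X.g f f x)) _) _ =
    _ * (pr2 (am X.g x (P.Gs (ψ x) (ip X.g f f x)) _) _ + _) at e
  have i0 : 0 < io P (ψ x) (ip X.g f f x) := lt_of_lt_of_le (by positivity) hG.io1
  have a1 := ((alg n X.g x _ (D1 f x) hg hG.Gs0 (by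
    change _ * ip X.g f f x ≤ 1
    rw [io] at i0
    linarith)).2.2.2.2.2 X.K (h.hX.syK x)).1.trans (h.fo.2 x)
  have a2 := abs_le_of_sq_le_sq a1 (by linarith)
  have a3 := cap_le (x := x) h.hX h.hP h.fo (1 / A ^ 2) (hf.sup x)
  have a4 := (abs_add_le _ _).trans (add_le_add a2 a3)
  have a5 := pow_le_pow_left₀ (abs_nonneg _) a4 2
  have a6 : P.φ₀ ^ 2 * P.om (ψ x) (ip X.g f f x) ^ 2 ≤ 1 + P.φ₀ ^ 2 * ip X.g f f x := by
    refine (mul_le_mul_of_nonneg_left hG.om2 (sq_nonneg _)).trans ?_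
    have y0 : 0 < ψ x := φ0.trans_le (hψ.bd x).1
    rw [mul_add, mul_one_div]
    exact add_le_add ((div_le_one (by positivity)).2 (pow_le_pow_left₀ φ0.le (hψ.bd x).1 2)) le_rfl
  rw [sq_abs] at a5
  rw [← pr2_am, e, ← mul_assoc, mul_pow, mul_pow]
  exact mul_le_mul a6 (a5.trans (le_of_eq (by ring))) (sq_nonneg _) (by positivity)

/-- bounds on a ball -/
theorem ball_bd (hX : X.Ok) (hχ : Smooth χ) (r : ℝ) : ∃ Λ ≥ (1 : ℝ), ∀ x : E n, ‖x‖ ≤ r →
    |scal X.g x| ≤ Λ ∧ normSq X.g (C.rc X.g) x ≤ Λ ^ 2 ∧ (∀ i j, |up X.g i j x| ≤ Λ) ∧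
    (∀ k i j, |chr X.g k i j x| ≤ Λ) ∧ (∀ i, |pd i χ x| ≤ Λ) ∧ ∀ i j, |hess X.g χ x i j| ≤ Λ := by
  have hg := mg hX
  have s1 := (C.RciH.sy_rc hg).sm
  have c1 : Continuous fun x => (scal X.g x, normSq X.g (C.rc X.g) x, fun i j => up X.g i j x,
      fun k i j => chr X.g k i j x, fun i => pd i χ x, fun i j => hess X.g χ x i j) :=
    hg.sm_scal.cont.prodMk ((continuous_finsetSum _ fun i _ => continuous_finsetSum _ fun j _ =>
      continuous_finsetSum _ fun k _ => continuous_finsetSum _ fun l _ =>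
        (((hg.sm_up i k).cont.mul (hg.sm_up j l).cont).mul (s1 i j).cont).mul (s1 k l).cont).prodMk
      ((continuous_pi fun i => continuous_pi fun j => (hg.sm_up i j).cont).prodMk
      ((continuous_pi fun k => continuous_pi fun i => continuous_pi fun j =>
        (hg.sm_chr k i j).cont).prodMk ((continuous_pi fun i => (hχ.pd i).cont).prodMk
        (continuous_pi fun i => continuous_pi fun j => (hg.sm_hess hχ i j).cont)))))
  obtain ⟨B, hB⟩ := (isCompact_closedBall (0 : E n) r).exists_bound_of_continuousOn c1.continuousOn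
  refine ⟨max B 1, le_max_right _ _, fun x hx => ?_⟩
  have k := (hB x (mem_closedBall_zero_iff.2 hx)).trans (le_max_left B 1)
  have m := le_max_right B 1
  simp only [Prod.norm_mk, max_le_iff] at k
  obtain ⟨k1, k2, k3, k4, k5, k6⟩ := k
  exact ⟨k1, ((le_abs_self _).trans k2).trans (by nlinarith),
    fun i j => ((norm_le_pi_norm (fun j => up X.g i j x) j).trans
      (norm_le_pi_norm (fun i j => up X.g i j x) i)).trans k3,
    fun k i j => (((norm_le_pi_norm (fun j => chr X.g k i j x) j).trans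
      (norm_le_pi_norm (fun i j => chr X.g k i j x) i)).trans
      (norm_le_pi_norm (fun k i j => chr X.g k i j x) k)).trans k4, fun i => (norm_le_pi_norm (fun i => pd i χ x) i).trans k5,
    fun i j => ((norm_le_pi_norm (hess X.g χ x i) j).trans
      (norm_le_pi_norm (fun i j => hess X.g χ x i j) i)).trans k6⟩

end FlrH

end Vale.Agent.P366Y
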