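import Vale.Agent.P366Y.K.Sol
import Vale.Agent.P366Y.K.Hic
import Vale.Agent.P366Y.K.Cap
import Vale.Agent.P366Y.K.Ufar
import Vale.Agent.P366Y.K.Psi
import Vale.Agent.P366Y.K.Nl
import Vale.Agent.P366Y.K.Lam
import Vale.Agent.P366Y.T.Mol
import Vale.Agent.P366Y.J.All
import Vale.Agent.P366Y.F.All
import Vale.Agent.P366Y.C.All
import Vale.Agent.P366Y.D.All
import Vale.Agent.P366Y.B.All
import Vale.Agent.P366Y.Flo
import Vale.Agent.P366Y.Pen

/-!
# P366Y: the spacetime Penrose inequality for exterior domains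
-/

open Vale.Agent.P366Z

namespace Vale.Agent.P366Y

theorem sol2 : SOL := sol_of J.jall2 F.uex C.mass psi_ mol gbf lam_ nl flo_ hic D.tst cap_ ufar
  fun _ hn => omega_pos (by omega)

theorem en2 : B.EN := fun n D m hn h1 h2 h3 h4 => pen_of hn (A.red0 n D m hn h1 h2 h3 h4) (sol2 n)

theorem full : B.FULL := B.full_of en2

end Vale.Agent.P366Y
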