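import Vale.Agent.P366Y.Sk
import Vale.Agent.P366Y.C.Hi
import Vale.Agent.P366Y.C.Gb
import Vale.Agent.P366Y.G.Scf

/-!
# P366Y: tools for the construction of the neck
-/

open MeasureTheory Metric Filter Topology Set
open scoped ContDiff ENNReal
open Vale.Agent.P366.Stmt Vale.Agent.P366Z

noncomputable section

namespace Vale.Agent.P366Y

namespace NeckH

open C.GbH

variable {n : ℕ} {g : Field n} {φ f : E n → ℝ} {x : E n}

theorem cov_gb (hg : Met g) (φ f : E n → ℝ) (x : E n) (ξ : Fin n → ℝ) :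
    covNorm g (fun i _ => ξ i) x * dens g x ≤
      covNorm (C.gb g φ f) (fun i _ => ξ i) x * dens (C.gb g φ f) x := by
  obtain ⟨A, hA⟩ : ∃ A, A = ∑ i, ∑ j, up g i j x * ξ i * ξ j := ⟨_, rfl⟩
  obtain ⟨c, hc⟩ : ∃ c, c = ∑ i, ξ i * gr g f i x := ⟨_, rfl⟩
  obtain ⟨W, hW⟩ : ∃ W, W = C.ww g φ f x := ⟨_, rfl⟩
  have W1 : 1 ≤ W := hW ▸ one_le_ww hg φ f x
  have W2 : W ^ 2 = 1 + φ x ^ 2 * ip g f f x := hW ▸ ww_sq hg φ f x
  have e1 : ∑ i, ∑ j, up (C.gb g φ f) i j x * ξ i * ξ j = A - φ x ^ 2 * c ^ 2 / W ^ 2 := by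
    rw [hA, hc, pow_two (∑ i, ξ i * gr g f i x), Finset.sum_mul_sum, Finset.mul_sum, Finset.sum_div,
      ← Finset.sum_sub_distrib]
    refine Finset.sum_congr rfl fun i _ => ?_
    rw [Finset.mul_sum, Finset.sum_div, ← Finset.sum_sub_distrib]
    refine Finset.sum_congr rfl fun j _ => ?_
    rw [up_gb hg, ← hW]
    ring
  have e2 : c ^ 2 ≤ A * ip g f f x := by
    have h := hg.up_cs x ξ fun i => pd i f x
    rw [← hA] at h
    refine le_trans (le_of_eq ?_) h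
    rw [hc]
    simp only [gr, Finset.mul_sum]
    congr 1
    exact Finset.sum_congr rfl fun i _ => Finset.sum_congr rfl fun j _ => by ring
  have e3 : A ≤ (A - φ x ^ 2 * c ^ 2 / W ^ 2) * W ^ 2 := by
    rw [sub_mul, div_mul_cancel₀ _ (by positivity), W2]
    nlinarith [mul_le_mul_of_nonneg_left e2 (sq_nonneg (φ x))]
  rw [dens_gb hg, ← hW, ← mul_assoc]
  refine mul_le_mul_of_nonneg_right ?_ (dens_nonneg _ _)
  rw [covNorm, covNorm, e1, ← hA]
  refine (Real.sqrt_le_sqrt e3).trans (le_of_eq ?_)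
  rw [Real.sqrt_mul' _ (sq_nonneg W), Real.sqrt_sq (by linarith)]

theorem ip_le (hg : Met g) (φ f : E n → ℝ) (x : E n) : φ x ^ 2 * ip (C.gb g φ f) f f x ≤ 1 := by
  have W2 := ww_sq hg φ f x
  have W1 := one_le hg φ f x
  rw [ip_gb hg, W2]
  have e : φ x ^ 2 * (ip g f f x - φ x ^ 2 * ip g f f x * ip g f f x / (1 + φ x ^ 2 * ip g f f x)) =
      φ x ^ 2 * ip g f f x / (1 + φ x ^ 2 * ip g f f x) := by
    field_simp
    ring
  rw [e, div_le_one (by linarith)]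
  linarith

/-- harmonic functions are close to the limit far away -/
theorem far (hn : 3 ≤ n) {R b : ℝ} (hR : 1 ≤ R) (hb : 0 ≤ b) : ∃ R' ≥ R, ∀ (v : E n → ℝ) (β : ℝ),
    Smooth v → (∀ x, R ≤ ‖x‖ → 0 ≤ v x ∧ lap (eu n) v x = 0) → Asy v 1 β → β ≤ b →
    ∀ x, R' ≤ ‖x‖ → v x ≤ 11 / 8 := by
  obtain ⟨C, hC⟩ := C.hi n hn
  obtain ⟨M, hM⟩ : ∃ M, M = |C| * (1 + b) + 1 := ⟨_, rfl⟩
  have M1 : 1 ≤ M := by rw [hM]; exact le_add_of_nonneg_left (by positivity)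
  have n3 : (3 : ℝ) ≤ n := by exact_mod_cast hn
  refine ⟨12 * R * M, by nlinarith, fun v β hv h hA hβ x hx => ?_⟩
  have k1 : ∀ y, 4 * R ≤ ‖y‖ → v y ≤ M := fun y hy => by
    have k := hC v 1 β b R 0 hR zero_le_one hb hβ hv (fun z hz => by simp [h z hz]) hA y hy
    have k2 : ‖y‖ ^ (2 - n : ℝ) ≤ 1 :=
      Real.rpow_le_one_of_one_le_of_nonpos (by linarith) (by linarith)
    have k3 : 0 ≤ ‖y‖ ^ (2 - n : ℝ) := by positivity
    have k4 : C * (1 + b * ‖y‖ ^ (2 - n : ℝ) + 0) ≤ |C| * (1 + b) :=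
      mul_le_mul (le_abs_self C) (by nlinarith) (by positivity) (abs_nonneg C)
    linarith
  have A1 : Asy (fun _ : E n => M) M 0 := ⟨0, 0, fun y _ => by simp [pd_const]⟩
  have A2 := (asy n v (fun _ => M) 1 M β 0 hn hv contDiff_const hA).2.2.1 (-1) 1 A1
  have x1 : 4 * R < ‖x‖ := by nlinarith
  have k := P366Y.C.HiH.low (v := fun y => -1 * v y + 1 * M) wmp hn (by linarith : 1 ≤ 4 * R)
    (by linarith) ((contDiff_const.mul hv).add contDiff_const) (fun y hy =>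
      ⟨by linarith [k1 y hy], by rw [lap_affine, (h y (by linarith)).2, mul_zero]⟩) A2 x x1
  have x0 : 0 < ‖x‖ := by linarith
  have k5 : (4 * R) ^ (n - 2 : ℝ) * ‖x‖ ^ (2 - n : ℝ) ≤ 4 * R / ‖x‖ := by
    rw [show (2 - n : ℝ) = -(n - 2) by ring, Real.rpow_neg x0.le, ← div_eq_mul_inv,
      ← Real.div_rpow (by linarith) x0.le]
    have k6 := Real.rpow_le_rpow_of_exponent_ge (x := 4 * R / ‖x‖) (y := n - 2) (z := 1)
      (by positivity) ((div_le_one x0).2 x1.le) (by linarith)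
    rwa [Real.rpow_one] at k6
  have k7 : M * (4 * R / ‖x‖) ≤ 1 / 3 := by
    rw [← mul_div_assoc, div_le_div_iff₀ x0 (by norm_num)]
    linarith
  have k8 : 0 ≤ 4 * R / ‖x‖ := by positivity
  have k9 := mul_le_mul_of_nonneg_left k5 (by linarith : 0 ≤ M - 1)
  nlinarith

theorem quot_bd {a u : E n → ℝ} (ha : Smooth a) (hu : Smooth u) (h0 : 1 / 2 ≤ u x) {A B C : ℝ}
    (h1 : |a x| ≤ A) (h2 : ‖fderiv ℝ a x‖ ≤ B) (h3 : ‖fderiv ℝ u x‖ ≤ C) :
    ‖fderiv ℝ (fun y => a y / u y) x‖ ≤ 2 * B + 4 * A * C := by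
  have u0 : 0 < u x := by linarith
  have d1 := ((ha.diff x).hasFDerivAt.mul ((hasDerivAt_inv u0.ne').comp_hasFDerivAt x
    (hu.diff x).hasFDerivAt)).fderiv
  have e : (fun y => a y / u y) = a * ((fun y : ℝ => y⁻¹) ∘ u) := funext fun y => div_eq_mul_inv _ _
  rw [e, d1]
  refine (norm_add_le _ _).trans ?_
  rw [norm_smul, norm_smul, norm_smul, Real.norm_eq_abs, Real.norm_eq_abs, Real.norm_eq_abs,
    abs_neg, abs_of_pos (by positivity : 0 < (u x ^ 2)⁻¹), Function.comp_apply,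
    abs_of_pos (inv_pos.2 u0)]
  have i1 : (u x)⁻¹ ≤ 2 := by rw [inv_le_comm₀ u0 two_pos]; linarith
  have i2 : (u x ^ 2)⁻¹ ≤ 4 := by rw [inv_le_comm₀ (by positivity) (by norm_num)]; nlinarith
  have A0 := (abs_nonneg _).trans h1
  have i3 : |a x| * ((u x ^ 2)⁻¹ * ‖fderiv ℝ u x‖) ≤ A * (4 * C) := by gcongr
  have i4 : (u x)⁻¹ * ‖fderiv ℝ a x‖ ≤ 2 * B := by gcongr
  linarith

theorem has_rt (z : ℝ) : HasDerivAt (fun z : ℝ => √(1 + z ^ 2)) (z / √(1 + z ^ 2)) z := by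
  have h := (((hasDerivAt_id z).fun_pow 2).const_add 1).sqrt (by simp only [id]; positivity)
  refine h.congr_deriv ?_
  simp only [id]
  field_simp
  norm_num

theorem rc_one {r : ℝ} (hr : 0 ≤ r) (hx : ‖x‖ ≤ r) : rc r x = 1 :=
  Real.smoothTransition.one_of_one_le ((one_le_div (by linarith)).2
    (by nlinarith [norm_nonneg x]))

theorem rc_zero {r : ℝ} (hr : 0 ≤ r) (hx : r + 1 ≤ ‖x‖) : rc r x = 0 :=
  Real.smoothTransition.zero_of_nonpos (div_nonpos_of_nonpos_of_nonneg (by nlinarith)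
    (by linarith))

end NeckH

end Vale.Agent.P366Y
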