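import Vale.Agent.P366Y.Defs

/-!
# P366Y: the statements of the blocks
-/

open MeasureTheory Metric Filter Topology Set
open scoped ContDiff ENNReal
open Vale.Agent.P366.Stmt Vale.Agent.P366Z

noncomputable section

namespace Vale.Agent.P366Y

/-! ### tools -/

/-- **SFP**: the fixed point theorem of Schauder -/
def SFP : Prop := ∀ (V : Type) [NormedAddCommGroup V] [NormedSpace ℝ V] (K : Set V) (T : V → V),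
  IsCompact K → Convex ℝ K → K.Nonempty → ContinuousOn T K → MapsTo T K K → ∃ x ∈ K, T x = x

/-- **INTP**: interpolation -/
def INTP : Prop := ∀ (n : ℕ) (α : ℝ), α ∈ Ioo (0 : ℝ) 1 → ∃ C > (0 : ℝ), ∀ (v : E n → ℝ)
  (A B r : ℝ), 0 < r → 0 ≤ A → 0 ≤ B → ContDiff ℝ 2 v →
  (∀ x y, ‖D2 v x - D2 v y‖ ≤ B * ‖x - y‖ ^ α) →
  ((∀ x y, ‖x - y‖ ≤ r → |v x - v y| ≤ A) →
    ∀ x, ‖D1 v x‖ ≤ C * (A / r + B * r ^ (1 + α)) ∧ ‖D2 v x‖ ≤ C * (A / r ^ 2 + B * r ^ α)) ∧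
  ((∀ x, ‖D1 v x‖ ≤ A) → ∀ x, ‖D2 v x‖ ≤ C * (A / r + B * r ^ α))

/-- **USCH**: the estimate of Schauder with uniform constants -/
def USCH : Prop := ∀ (n : ℕ) (α Λ : ℝ), α ∈ Ioo (0 : ℝ) 1 → ∃ C > (0 : ℝ), ∀ (a : E n → Mx n)
  (v : E n → ℝ) (A B : ℝ), (∀ x, El Λ (a x)) → Ho α Λ a → ContDiff ℝ 2 v →
  (∃ K, Ho α K (D2 v)) → (∀ x, ‖D1 v x‖ ≤ A) → Ho α B (fun x => pr2 (a x) (D2 v x)) →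
  Ho α (C * (A + B)) (D2 v)

/-- the linear operators: `a` is the identity outside the ball of radius `ρ`, `c = l` inside -/
structure Lin {n : ℕ} (Λ₀ ρ l : ℝ) (a : E n → Mx n) (c : E n → ℝ) : Prop where
  el : ∃ Λ, ∀ x, El Λ (a x)
  bd : ∀ x i j, |a x i j| ≤ Λ₀
  id : ∀ x, ρ ≤ ‖x‖ → a x = eu n x
  cb : ∀ x, 0 ≤ c x ∧ c x ≤ l
  cl : ∀ x, ‖x‖ ≤ ρ → c x = l

/-- **MPN**: the maximum principle -/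
def MPN : Prop := ∀ (n : ℕ) (Λ₀ ρ : ℝ), 3 ≤ n → ∃ l₀ : ℝ, ∃ C > (0 : ℝ), ∀ l ≥ l₀,
  ∀ (a : E n → Mx n) (c v : E n → ℝ) (H : ℝ), Lin Λ₀ ρ l a c → ContDiff ℝ 2 v →
    Tendsto v (cocompact (E n)) (𝓝 0) → 0 ≤ H →
    (∀ x, -H ≤ pr2 (a x) (D2 v x) - c x * v x) →
    (∀ x, ρ + 1 ≤ ‖x‖ → 0 ≤ pr2 (a x) (D2 v x) - c x * v x) → ∀ x, v x ≤ C * H * bu n x

/-- **LINH**: linear equations with Hölder coefficients -/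
def LINH : Prop := ∀ (n : ℕ) (Λ₀ ρ : ℝ), 3 ≤ n → ∃ l₀ : ℝ, ∀ l ≥ l₀, ∀ α ∈ Ioo (0 : ℝ) 1,
  ∀ (a : E n → Mx n) (c h : E n → ℝ), Lin Λ₀ ρ l a c → (∃ A, Ho α A a ∧ Ho α A c ∧ Ho α A h) →
    (∀ x, ρ + 1 ≤ ‖x‖ → h x = 0) → ∃ v, (∃ A, C2H α A v) ∧ Tendsto v (cocompact (E n)) (𝓝 0) ∧
      ∀ x, pr2 (a x) (D2 v x) - c x * v x = h x

/-- the jet of order one -/
def J1 {n : ℕ} (v : E n → ℝ) (x : E n) : ℝ × Vc n := (v x, D1 v x)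

/-- a quasilinear nonlocal problem -/
structure Ql {n : ℕ} (Λ₀ ρ l α : ℝ) (c : E n → ℝ) (a : (E n → ℝ × Vc n) → E n → Mx n)
    (b : (E n → ℝ × Vc n) → E n → ℝ) : Prop where
  hc : ∃ A, Ho α A c
  bd : ∀ M, ∃ Λ, ∀ j, Ho α M j → Lin Λ₀ ρ l (a j) c ∧ (∀ x, El Λ (a j x)) ∧ Ho α Λ (a j) ∧
    Ho α Λ (b j) ∧ ∀ x, ρ + 1 ≤ ‖x‖ → b j x = c x * (j x).1
  ct : ∀ M, ∀ e > (0 : ℝ), ∃ d > (0 : ℝ), ∀ j j', Ho α M j → Ho α M j' → (∀ x, ‖j x - j' x‖ ≤ d) →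
    ∀ x, ‖a j x - a j' x‖ ≤ e ∧ |b j x - b j' x| ≤ e
  loc : ∀ j j', (∃ M, Ho α M j ∧ Ho α M j') → (∀ x, ‖x‖ ≤ ρ + 2 → j x = j' x) →
    ∀ x, ‖x‖ ≤ ρ + 1 → a j x = a j' x ∧ b j x = b j' x
  ap : ∃ M, ∀ σ ∈ Icc (0 : ℝ) 1, ∀ v, (∃ A, C2H α A v) → Tendsto v (cocompact (E n)) (𝓝 0) →
    (∀ x, pr2 (a (J1 v) x) (D2 v x) = σ * b (J1 v) x + (1 - σ) * c x * v x) → Ho α M (J1 v)

/-- **QE**: the principle of Leray and Schauder -/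
def QE : Prop := ∀ (n : ℕ) (Λ₀ ρ : ℝ), 3 ≤ n → ∃ l₀ : ℝ, ∀ l ≥ l₀, ∀ α ∈ Ioo (0 : ℝ) 1,
  ∀ (c : E n → ℝ) a b, Ql Λ₀ ρ l α c a b → ∃ v, (∃ A, C2H α A v) ∧
    Tendsto v (cocompact (E n)) (𝓝 0) ∧ ∀ x, pr2 (a (J1 v) x) (D2 v x) = b (J1 v) x

/-- **REGQ**: smoothness -/
def REGQ : Prop := ∀ (n : ℕ) (α A : ℝ) (v : E n → ℝ) (a : E n × ℝ × Vc n → Mx n)
  (b : E n × ℝ × Vc n → ℝ), α ∈ Ioo (0 : ℝ) 1 → C2H α A v → ContDiff ℝ ∞ a → ContDiff ℝ ∞ b →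
  (∀ x, ∃ Λ, El Λ (a (x, J1 v x))) → (∀ x, pr2 (a (x, J1 v x)) (D2 v x) = b (x, J1 v x)) → Smooth v

/-- **NATS**: from Hölder continuity to the estimate of Schauder under natural growth -/
def NATS : Prop := ∀ (n : ℕ) (α Λ : ℝ), α ∈ Ioo (0 : ℝ) 1 → ∃ C : ℝ, ∀ (a : E n → Mx n)
  (b : E n → Vc n → ℝ) (v : E n → ℝ), (∀ x, El Λ (a x)) → Ho α Λ a → (∃ A, C2H α A v) →
  Ho α Λ v → (∀ x q, |b x q| ≤ Λ * (1 + e2 q)) →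
  (∀ x y q, |b x q - b y q| ≤ Λ * (1 + e2 q) * ‖x - y‖ ^ α) →
  (∀ x q q', |b x q - b x q'| ≤ Λ * (1 + ‖q‖ + ‖q'‖) * ‖q - q'‖) →
  (∀ x, pr2 (a x) (D2 v x) = b x (D1 v x)) → C2H α C v

/-- **DGS**: the local maximum estimate -/
def DGS : Prop := ∀ (n : ℕ) (γ : ℝ), 3 ≤ n → ∃ C > (0 : ℝ), ∀ (χ k₀ r : ℝ) (v : E n → ℝ) (x₀ : E n),
  0 < r → 0 ≤ χ → ContDiff ℝ 1 v → DG γ χ k₀ v x₀ r → ∀ y ∈ ball x₀ (r / 2),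
    v y ≤ k₀ + C * (√((∫ z in ball x₀ r, max (v z - k₀) 0 ^ 2) / r ^ n) + χ * r)

/-- **DGO**: the Hölder estimate -/
def DGO : Prop := ∀ (n : ℕ) (γ : ℝ), 3 ≤ n → ∃ θ ∈ Ioo (0 : ℝ) 1, ∃ C > (0 : ℝ),
  ∀ (χ K r : ℝ) (v : E n → ℝ) (x₀ : E n), 0 < r → 0 ≤ χ → ContDiff ℝ 1 v →
    (∀ y ∈ ball x₀ r, |v y| ≤ K) → DG γ χ (-K) v x₀ r → DG γ χ (-K) (fun y => -v y) x₀ r →
    ∀ y ∈ ball x₀ (r / 2), ∀ z ∈ ball x₀ (r / 2), |v y - v z| ≤ C * (K + χ * r) * (‖y - z‖ / r) ^ θ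

/-- **CAC1**: equations in divergence form -/
def CAC1 : Prop := ∀ (n : ℕ) (Λ : ℝ), ∃ γ C : ℝ, 0 ≤ C ∧ ∀ (a : E n → Mx n) (G : E n → Vc n)
  (v : E n → ℝ) (x₀ : E n) (r χ k₀ : ℝ), Continuous a → Continuous G → ContDiff ℝ 1 v → 0 ≤ χ →
  (∀ y ∈ ball x₀ r, El Λ (a y) ∧ ‖G y‖ ≤ χ) →
  (∀ ζ : E n → ℝ, Lip ζ → (∀ y, r ≤ ‖y - x₀‖ → ζ y = 0) →
    ∫ y, ∑ i, (∑ j, a y i j * pd j v y - G y i) * pd i ζ y = 0) →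
  DG γ (C * χ) k₀ v x₀ r

/-- **CAC2**: subsolutions under natural growth -/
def CAC2 : Prop := ∀ (n : ℕ) (Λ K : ℝ), ∃ γ C : ℝ, 0 ≤ C ∧ ∀ (a : E n → Mx n) (v : E n → ℝ)
  (x₀ : E n) (r : ℝ), 0 < r → ContDiff ℝ 1 a → ContDiff ℝ 2 v →
  (∀ y ∈ ball x₀ r, El Λ (a y) ∧ |v y| ≤ K ∧
    (∀ i j k, |pd k (fun z => a z i j) y| ≤ Λ * (1 / r + ‖D1 v y‖)) ∧
    -(Λ * (1 / r ^ 2 + e2 (D1 v y))) ≤ pr2 (a y) (D2 v y)) → DG γ (C / r) (-K) v x₀ r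

/-- **LOC**: the local maximum estimate for linear subsolutions -/
def LOC : Prop := ∀ (n : ℕ) (Λ : ℝ), 3 ≤ n → ∃ C > (0 : ℝ), ∀ (a : E n → Mx n) (v : E n → ℝ)
  (x₀ : E n) (r k₀ : ℝ), 0 < r → 0 ≤ k₀ → ContDiff ℝ 1 a → ContDiff ℝ 2 v →
  (∀ y ∈ ball x₀ r, El Λ (a y) ∧ (∀ i j k, |pd k (fun z => a z i j) y| ≤ Λ / r) ∧
    (k₀ < v y → -(Λ * (‖D1 v y‖ / r + v y / r ^ 2)) ≤ pr2 (a y) (D2 v y))) →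
  ∀ y ∈ ball x₀ (r / 2), v y ≤ C * (k₀ + √((∫ z in ball x₀ r, max (v z - k₀) 0 ^ 2) / r ^ n))

/-- **L2B**: the energy controls the square on balls -/
def L2B : Prop := ∀ (n : ℕ) (r : ℝ), 3 ≤ n → ∃ C > (0 : ℝ), ∀ (u : E n → ℝ) (e : ℝ),
  Smooth u → Tendsto u (cocompact (E n)) (𝓝 1) → (∀ r', En u r' ≤ e) →
  ∫ x in ball (0 : E n) r, max (u x - 2) 0 ^ 2 ≤ C * e

/-- **OSC**: small energy and a modulus give small oscillation -/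
def OSC : Prop := ∀ (n : ℕ) (θ K e : ℝ), 0 < θ → 0 < e → ∃ e' > (0 : ℝ), ∀ (v : E n → ℝ) (x₀ : E n)
  (r : ℝ), 0 < r → ContDiff ℝ 1 v →
  (∀ y ∈ ball x₀ r, ∀ z ∈ ball x₀ r, |v y - v z| ≤ K * (‖y - z‖ / r) ^ θ) →
  r ^ 2 * ∫ y in ball x₀ r, e2 (D1 v y) ≤ e' * r ^ n →
  ∀ y ∈ ball x₀ r, ∀ z ∈ ball x₀ r, |v y - v z| ≤ e

/-- **MOL**: the smoothing operator exists -/
def MOL : Prop := ∀ n : ℕ, ∃ C > (0 : ℝ), ∀ δ > (0 : ℝ), ∃ S : (E n → ℝ) → E n → ℝ, Mol C δ S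

/-- **GB**: the gradient bound -/
def GB : Prop := ∀ (n : ℕ) (C : ℝ), ∃ C' : ℝ, ∀ (M : ℝ) (f : E n → ℝ) (a : E n × Vc n → Mx n)
  (b : E n × ℝ × Vc n → ℝ), 1 ≤ M → Smooth f → ContDiff ℝ 1 a → ContDiff ℝ 1 b →
  Tendsto (D1 f) (cocompact (E n)) (𝓝 0) →
  (∀ x, pr2 (a (x, D1 f x)) (D2 f x) = b (x, J1 f x)) →
  (∀ x, M ^ 2 ≤ e2 (D1 f x) → (∃ Λ, El Λ (a (x, D1 f x))) ∧
    (∀ ξ : Vc n, ∑ i, ξ i * D1 f x i = 0 → e2 ξ ≤ C * ∑ i, ∑ j, a (x, D1 f x) i j * ξ i * ξ j) ∧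
    (∀ i j k, |pd k (fun y => a (y, D1 f x) i j) x| ≤ C) ∧
    (∀ k, |pd k (fun y => b (y, J1 f x)) x| ≤ C * ‖D1 f x‖) ∧
    C' ≤ deriv (fun z => b (x, z, D1 f x)) (f x)) → ∀ x, e2 (D1 f x) ≤ M ^ 2

end Vale.Agent.P366Y
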