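import Vale.Agent.P366Y.Sk

/-!
# P366Y: the statements about the two equations
-/

open MeasureTheory Metric Filter Topology Set
open scoped ContDiff ENNReal
open Vale.Agent.P366.Stmt Vale.Agent.P366Z

noncomputable section

namespace Vale.Agent.P366Y

/-- admissible parameters -/
structure Adm {n : ℕ} (X : Dat n) (CK C : ℝ) (P : Pa) : Prop where
  ok : P.Ok
  fo : P.For X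
  ck : P.CK = CK
  big : P.Big C

/-- a statement for all data and all well ordered parameters -/
def ForP (Q : ∀ (n : ℕ) (_ : Dat n) (_ : Pa), Prop) : Prop :=
  ∀ (n : ℕ) (X : Dat n) (CK : ℝ), X.Ok → ∃ C : ℝ, ∀ P, Adm X CK C P → Q n X P

/-- **PAR**: the parameters exist -/
def PAR : Prop := ∀ (C CK p₀ η ℓ : ℝ), 1 ≤ CK → 0 < p₀ → 0 < η → η ≤ 1 / 16 → ∃ P : Pa,
  P.Ok ∧ P.Big C ∧ P.η = η ∧ P.CK = CK ∧ P.p₁ ≤ p₀ ∧ ℓ ≤ P.φ₀ * P.F₀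

/-- **SMH**: smooth functions are Lipschitz on compact sets of jets -/
def SMH : Prop := ∀ (n : ℕ) (W V : Type) [NormedAddCommGroup W] [NormedSpace ℝ W]
  [NormedAddCommGroup V] [NormedSpace ℝ V] (Φ : E n × W → V) (K : Set W) (R : ℝ), IsCompact K →
  Convex ℝ K → (∀ x, ∀ w ∈ K, ContDiffAt ℝ 1 Φ (x, w)) →
  (∀ x x', ∀ w ∈ K, R ≤ ‖x‖ → R ≤ ‖x'‖ → Φ (x, w) = Φ (x', w)) → ∃ Λ > (0 : ℝ),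
    ∀ x x', ∀ w ∈ K, ∀ w' ∈ K, ‖Φ (x, w)‖ ≤ Λ ∧ ‖Φ (x, w) - Φ (x', w')‖ ≤ Λ * (‖x - x'‖ + ‖w - w'‖)

/-- **NHO**: the Hölder estimate under natural growth -/
def NHO : Prop := ∀ (n : ℕ) (Λ K : ℝ), 3 ≤ n → ∃ θ ∈ Ioo (0 : ℝ) 1, ∃ C > (0 : ℝ),
  ∀ (a : E n → Mx n) (v : E n → ℝ) (x₀ : E n) (r : ℝ), 0 < r → ContDiff ℝ 1 a → ContDiff ℝ 2 v →
  (∀ y ∈ ball x₀ r, El Λ (a y) ∧ |v y| ≤ K ∧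
    (∀ i j k, |pd k (fun z => a z i j) y| ≤ Λ * (1 / r + ‖D1 v y‖)) ∧
    |pr2 (a y) (D2 v y)| ≤ Λ * (1 / r ^ 2 + e2 (D1 v y))) →
  ∀ y ∈ ball x₀ (r / 2), ∀ z ∈ ball x₀ (r / 2), |v y - v z| ≤ C * (‖y - z‖ / r) ^ θ

/-- **LSCH**: the local estimate of Schauder -/
def LSCH : Prop := ∀ (n : ℕ) (α Λ r : ℝ), α ∈ Ioo (0 : ℝ) 1 → 0 < r → ∃ C > (0 : ℝ),
  ∀ (a : E n → Mx n) (v : E n → ℝ) (x₀ : E n) (A B : ℝ), Smooth v →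
  (∀ y ∈ ball x₀ r, El Λ (a y) ∧ ‖J1 v y‖ ≤ A ∧ |pr2 (a y) (D2 v y)| ≤ B ∧ ∀ z ∈ ball x₀ r,
    ‖a y - a z‖ ≤ Λ * ‖y - z‖ ^ α ∧ ‖J1 v y - J1 v z‖ ≤ A * ‖y - z‖ ^ α ∧
      |pr2 (a y) (D2 v y) - pr2 (a z) (D2 v z)| ≤ B * ‖y - z‖ ^ α) → ‖D2 v x₀‖ ≤ C * (A + B)

/-- the cut: one on the ball of radius `R + 11 / 2`, zero outside the ball of radius `R + 6` -/
def ct {n : ℕ} (X : Dat n) (x : E n) : ℝ := rc (2 * X.R + 11) ((2 : ℝ) • x)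

/-- the function `f` after the cut -/
def fc {n : ℕ} (X : Dat n) (f : E n → ℝ) (x : E n) : ℝ := ct X x * f x

/-- **CUT** -/
def CUT : Prop := ∀ (n : ℕ) (X : Dat n), 1 ≤ X.R → Smooth (ct X) ∧
  (∀ x, ct X x ∈ Icc (0 : ℝ) 1 ∧ (‖x‖ ≤ X.R + 11 / 2 → ct X x = 1) ∧ (X.R + 6 ≤ ‖x‖ → ct X x = 0)) ∧
  (∀ (P : Pa) f u, Smooth f → (∀ x, X.R + 6 ≤ ‖x‖ → f x = 0) →
    (∀ x, X.R + 6 ≤ ‖x‖ → D1 f x = 0 ∧ D2 f x = 0) ∧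
      gb X.g (wp X P u) f = gb X.g (fun y => P.φ (u y)) f) ∧
  ∃ C ≥ (1 : ℝ), (∀ x, ‖D1 (ct X) x‖ ≤ C ∧ ‖D2 (ct X) x‖ ≤ C) ∧
    (∀ f f' x (d : ℝ), Smooth f → Smooth f' → |f x - f' x| ≤ d → ‖D1 f x - D1 f' x‖ ≤ d →
      |fc X f x - fc X f' x| ≤ d ∧ ‖D1 (fc X f) x - D1 (fc X f') x‖ ≤ C * d ∧
        (‖D2 f x - D2 f' x‖ ≤ d → ‖D2 (fc X f) x - D2 (fc X f') x‖ ≤ C * d)) ∧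
    ∀ α ∈ Ioo (0 : ℝ) 1, ∀ H f, C2H α H f → C2H α (C * H) (fc X f)

/-- **PSI**: the smoothed warping function -/
def PSI : Prop := ∀ (n : ℕ) (X : Dat n) (Cm : ℝ), 1 ≤ X.R → ∃ A₀ : ℝ, ∀ P : Pa, P.Ok →
  ∀ δ ∈ Ioc (0 : ℝ) (1 / 2), ∀ S, Mol Cm δ S → ∀ u, Continuous u →
    Ps X P (A₀ / δ) (psi X P S u) ∧ (∀ x, P.φ (u x) ≤ psi X P S u x) ∧
    (∀ x, ∀ h ≥ (0 : ℝ), ‖x‖ ≤ X.R + 4 → (∀ y ∈ ball x (2 * δ), u y ≤ u x + h) →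
      psi X P S u x ≤ P.φ (u x) + 2 * P.lam * h) ∧
    ∀ u', ∀ d ≥ (0 : ℝ), Continuous u' → (∀ y, ‖y‖ ≤ X.R + 7 → |u y - u' y| ≤ d) →
      ∀ x, |psi X P S u x - psi X P S u' x| ≤ 2 * P.lam * d

/-! ### the equation for `f` -/

/-- the properties of the gauge -/
structure Gau (P : Pa) (C : ℝ) : Prop where
  der : ∀ y t, 0 < y → 0 ≤ t → HasDerivAt (P.G y) (P.Gs y t) t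
  nn : ∀ y ∈ Icc P.φ₀ 2, ∀ t ≥ (0 : ℝ), 0 ≤ P.Gs y t ∧ 1 / (1 + 4 * P.L * t) ≤ 1 - t * P.Gs y t ∧
    1 - t * P.Gs y t ≤ C / (1 + P.L * y ^ 2 * t)
  lam : ∀ y ∈ Icc P.φ₀ 2, ∀ t ≥ (0 : ℝ), P.L * y ^ 2 * (1 - t * P.Gs y t) ≤ C * P.Gs y t
  lo : ∀ y t, 0 < y → 0 ≤ t → t ≤ P.M₀ ^ 2 →
    P.Gs y t = P.L * y ^ 2 / (1 + P.L * y ^ 2 * t) ∧ P.om y t = √(1 / y ^ 2 + t)
  hi : ∀ y t, 0 < y → 0 ≤ t → 2 * P.M₀ ^ 2 ≤ t ∨ y = 2 →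
    P.Gs y t = 4 * P.L / (1 + 4 * P.L * t) ∧ P.om y t = √(1 / 4 + t)
  om : ∀ y ∈ Icc P.φ₀ 2, ∀ t ≥ (0 : ℝ), 0 < P.om y t ∧ 1 / 4 + t ≤ P.om y t ^ 2 ∧
    P.om y t ^ 2 ≤ 1 / y ^ 2 + t
  sm : ∀ y t, 0 < y → 0 ≤ t → ContDiffAt ℝ ∞ (fun w : ℝ × ℝ => P.G w.1 w.2) (y, t) ∧
    ContDiffAt ℝ ∞ (fun w : ℝ × ℝ => P.Gs w.1 w.2) (y, t) ∧
    ContDiffAt ℝ ∞ (fun w : ℝ × ℝ => P.om w.1 w.2) (y, t)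

/-- **GAU** -/
def GAU : Prop := ∃ C₀ ≥ (1 : ℝ), ∀ P : Pa, P.Ok → P.Big C₀ → Gau P C₀

/-- **JLP**: bounds of the coefficients -/
def JLP : Prop := ForP fun n X P =>
  (∃ Λ₀, ∀ ψ x p, ψ x ∈ Icc P.φ₀ 2 → ∀ i j, |aJ X P ψ x p i j| ≤ Λ₀) ∧
  (∀ ψ x p, X.ρ ≤ ‖x‖ → aJ X P ψ x p = eu n x) ∧
  (∀ s l σ ψ, s ≠ 0 → Smooth ψ → (∀ x, 0 < ψ x) →
    ContDiff ℝ ∞ (fun w : E n × Vc n => aJ X P ψ w.1 w.2) ∧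
    ContDiff ℝ ∞ fun w : E n × ℝ × Vc n => bJ X P s l σ ψ w.1 w.2.1 w.2.2) ∧
  (∀ l > (0 : ℝ), ∃ c > (0 : ℝ), ∀ s > (0 : ℝ), ∀ ψ x z z' p, ψ x ∈ Icc P.φ₀ 2 → z ≤ z' →
    c * (z' - z) ≤ bJ X P s l 1 ψ x z' p - bJ X P s l 1 ψ x z p) ∧
  ∀ l M, ∃ Λ₁ > (0 : ℝ), ∀ s > (0 : ℝ), ∀ σ ∈ Icc (0 : ℝ) 1, ∀ ψ ψ' x x' z z' p p',
    ψ x ∈ Icc P.φ₀ 2 → ψ' x' ∈ Icc P.φ₀ 2 → |z| ≤ M → |z'| ≤ M → ‖p‖ ≤ M → ‖p'‖ ≤ M →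
    El Λ₁ (aJ X P ψ x p) ∧ |bJ X P s l σ ψ x z p| ≤ Λ₁ ∧
    ‖aJ X P ψ x p - aJ X P ψ' x' p'‖ ≤ Λ₁ * (‖x - x'‖ + |ψ x - ψ' x'| + ‖p - p'‖) ∧
    |bJ X P s l σ ψ x z p - bJ X P s l σ ψ' x' z' p'| ≤
      Λ₁ * (‖x - x'‖ + |ψ x - ψ' x'| + |z - z'| + ‖p - p'‖ +
        |Real.arctan (z / s) - Real.arctan (z' / s)|)

/-- **JAP**: the bounds of `f` and of its gradient -/
def JAP : Prop := ForP fun _ X P => ∃ l₀ : ℝ, ∀ l ≥ l₀, ∃ M : ℝ, ∀ s > (0 : ℝ),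
  ∀ σ ∈ Icc (0 : ℝ) 1, ∀ A ψ f, Ps X P A ψ → Jf X P s l σ ψ f →
    ∀ x, |f x| ≤ 8 * P.F₀ ∧ ‖fderiv ℝ f x‖ ≤ M

/-- **JHO**: the Hölder estimate of the gradient at the scale `r` -/
def JHO : Prop := ForP fun _ X P => ∀ l M A₀ : ℝ, ∃ θ ∈ Ioo (0 : ℝ) 1, ∃ C > (0 : ℝ),
  ∀ s > (0 : ℝ), ∀ σ ∈ Icc (0 : ℝ) 1, ∀ A ψ f x₀ r, 0 < r → r ≤ 1 → Ps X P A ψ → Jf X P s l σ ψ f →
    (∀ x, |f x| ≤ M ∧ ‖fderiv ℝ f x‖ ≤ M) → (∀ y ∈ ball x₀ r, ‖fderiv ℝ ψ y‖ ≤ A₀ / r) →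
    ∀ y ∈ ball x₀ (r / 2), ∀ z ∈ ball x₀ (r / 2), ‖D1 f y - D1 f z‖ ≤ C * (‖y - z‖ / r) ^ θ

/-- **JC2**: the second derivatives at the scale `δ` -/
def JC2 : Prop := ForP fun _ X P => ∀ l M A₀ : ℝ, ∃ θ ∈ Ioo (0 : ℝ) 1, ∀ s > (0 : ℝ), ∃ C > (0 : ℝ),
  ∀ δ ∈ Ioc (0 : ℝ) 1, ∃ C' : ℝ, ∀ σ ∈ Icc (0 : ℝ) 1, ∀ ψ f, Ps X P (A₀ / δ) ψ → Jf X P s l σ ψ f →
    (∀ x, |f x| ≤ M ∧ ‖fderiv ℝ f x‖ ≤ M) → (∀ x, ‖D2 f x‖ ≤ C / δ) ∧ C2H θ C' f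

/-- **JEX**: existence -/
def JEX : Prop := ForP fun _ X P => ∃ l₀ : ℝ, ∀ l ≥ l₀, ∀ s > (0 : ℝ), ∀ A ψ, Ps X P A ψ →
  ∃ f, Jf X P s l 1 ψ f

/-- **JCT**: continuous dependence -/
def JCT : Prop := ForP fun _ X P => ∀ l > (0 : ℝ), ∀ s > (0 : ℝ), ∀ θ ∈ Ioo (0 : ℝ) 1, ∀ H : ℝ,
  ∀ e > (0 : ℝ), ∃ d > (0 : ℝ), ∀ A ψ ψ' f f', Ps X P A ψ → Ps X P A ψ' → Jf X P s l 1 ψ f →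
    Jf X P s l 1 ψ' f' → C2H θ H f → C2H θ H f' → (∀ x, |ψ x - ψ' x| ≤ d) →
    ∀ x, |f x - f' x| ≤ e ∧ ‖D1 f x - D1 f' x‖ ≤ e ∧ ‖D2 f x - D2 f' x‖ ≤ e

/-- **BARO**: the dead core -/
def BARO : Prop := ForP fun _ X P => ∀ l > (0 : ℝ), ∀ s ∈ Ioc (0 : ℝ) 1, ∀ A ψ f, Ps X P A ψ →
  Jf X P s l 1 ψ f → (∀ x, |f x| ≤ 8 * P.F₀) → ∀ x, X.R + 1 ≤ ‖x‖ → |f x| ≤ s

/-- **BARI**: the inner barrier -/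
def BARI : Prop := ForP fun _ X P => ∀ l : ℝ, ∀ s > (0 : ℝ), ∀ A ψ f, Ps X P A ψ →
  Jf X P s l 1 ψ f → (∀ x, |f x| ≤ 8 * P.F₀) → ∀ x, X.F x ≤ 0 → 2 * P.F₀ ≤ f x

/-- **JFAR**: the solution is small near the cut -/
def JFAR : Prop := ForP fun _ X P => ∀ l M : ℝ, ∀ ε > (0 : ℝ), ∃ s₀ > (0 : ℝ), ∀ s ∈ Ioc 0 s₀,
  ∀ A ψ f, Ps X P A ψ → Jf X P s l 1 ψ f → (∀ x, |f x| ≤ M ∧ ‖fderiv ℝ f x‖ ≤ M) →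
    (∀ x, X.R + 1 ≤ ‖x‖ → |f x| ≤ s) →
    ∀ x, X.R + 11 / 2 ≤ ‖x‖ → ‖fderiv ℝ f x‖ ≤ ε ∧ ‖D1 f x‖ ^ 2 * ‖D2 f x‖ ≤ ε

/-- what the mass estimate uses about `f`, with the zone of the cut -/
structure Jh {n : ℕ} (X : Dat n) (P : Pa) (s M ε : ℝ) (ψ f : E n → ℝ) : Prop
    extends Jg X P s M ε ψ f where
  cut : ∀ x, X.R + 11 / 2 ≤ ‖x‖ → ‖fderiv ℝ f x‖ ≤ ε ∧ ‖D1 f x‖ ^ 2 * ‖D2 f x‖ ≤ ε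

/-- **JG**: the collected properties of `f` -/
def JG : Prop := ForP fun _ X P => ∃ l₀ : ℝ, ∀ l ≥ l₀, ∃ M ≥ 8 * P.F₀, ∀ ε > (0 : ℝ),
  ∃ s₀ > (0 : ℝ), ∀ s ∈ Ioc 0 s₀, ∀ A ψ f, Ps X P A ψ → Jf X P s l 1 ψ f → Jh X P s M ε ψ f

/-! ### the equation for `u` -/

/-- the jets: point, gradient of `f`, value of `u`, Hessian of `f`, gradient of `u` -/
abbrev Jt (n : ℕ) := E n × Vc n × ℝ × Mx n × Vc n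

/-- the structure of the lower order part `Φ` -/
structure Str {n : ℕ} (X : Dat n) (P : Pa) (Φ : Jt n → ℝ) : Prop where
  sm : ContDiff ℝ ∞ Φ
  eqn : ∀ f u, Smooth f → Smooth u → (∀ x, X.R + 6 ≤ ‖x‖ → f x = 0) → ∀ x,
    4 * gam n * lap (gb X.g (wp X P u) f) u x - scal (gb X.g (wp X P u) f) x * u x =
      pr2 (aU X P x (D1 f x) (u x)) (D2 u x) - Φ (x, D1 f x, u x, D2 f x, D1 u x)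
  bd : ∀ M, ∃ Λ > (0 : ℝ), ∀ x x' p p' z z' H H' q q', ‖x‖ ≤ M → ‖x'‖ ≤ M → ‖p‖ ≤ M → ‖p'‖ ≤ M →
    |z| ≤ M → |z'| ≤ M → |Φ (x, p, z, H, q)| ≤ Λ * (1 + ‖H‖ ^ 2 + ‖q‖ ^ 2) ∧
    |Φ (x, p, z, H, q) - Φ (x', p', z', H', q')| ≤
      Λ * (1 + ‖H‖ ^ 2 + ‖H'‖ ^ 2 + ‖q‖ ^ 2 + ‖q'‖ ^ 2) * (‖x - x'‖ + ‖p - p'‖ + |z - z'|) +
        Λ * (1 + ‖H‖ + ‖H'‖ + ‖q‖ + ‖q'‖) * (‖H - H'‖ + ‖q - q'‖)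
  lin : ∀ M, ∃ Λ > (0 : ℝ), ∀ x p z H q, ‖x‖ ≤ M → ‖p‖ ≤ M → 2 ≤ z ∨ z ≤ 1 / 2 →
    |Φ (x, p, z, H, q)| ≤ Λ * ((1 + ‖H‖) * ‖q‖ + (1 + ‖H‖ ^ 2) * |z|)

/-- **STR** -/
def STR : Prop := ∀ (n : ℕ) (X : Dat n) (P : Pa), X.Ok → P.Ok → ∃ Φ, Str X P Φ

/-- **AUB**: bounds of the principal part -/
def AUB : Prop := ∀ (n : ℕ) (X : Dat n) (P : Pa), X.Ok → P.Ok →
  ContDiff ℝ ∞ (fun w : E n × Vc n × ℝ => aU X P w.1 w.2.1 w.2.2) ∧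
  (∃ Λ₀, ∀ x p z i j, |aU X P x p z i j| ≤ Λ₀) ∧ (∀ x p z, 2 ≤ z → aU X P x p z = aU X P x p 2) ∧
  (∀ x p z, X.R + 7 ≤ ‖x‖ → aU X P x p z = fun i j => 4 * gam n * up X.g i j x) ∧
  ∀ M, ∃ Λ > (0 : ℝ), ∀ x p z, ‖p‖ ≤ M → El Λ (aU X P x p z) ∧ ∀ x' p' z', ‖p'‖ ≤ M →
    ‖aU X P x p z - aU X P x' p' z'‖ ≤ Λ * (‖x - x'‖ + ‖p - p'‖ + |z - z'|)

/-- **FLR**: the penalty beats the curvature at the floor -/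
def FLR : Prop := ∀ (n : ℕ) (X : Dat n) (CK : ℝ), X.Ok → ∃ cY ≥ (0 : ℝ), ∃ C : ℝ, ∀ P,
  Adm X CK C P → ∃ ε > (0 : ℝ), ∀ s ∈ Ioc 0 ε, ∀ M A ψ f, Ps X P A ψ → Jh X P s M ε ψ f →
    ∀ x (v : E n → ℝ), Smooth v → (∀ y, 0 < v y) → IsLocalMin v x → v x = P.φ₀ →
      scal (gb X.g v (fc X f)) x < (1 - rc (X.R + 7) x) * scal X.g x + flo X P cY ψ (fc X f) x

/-- the function `u` of the unknown `w` -/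
def uw {n : ℕ} (X : Dat n) (w : E n → ℝ) (x : E n) : ℝ := 1 + w x / X.U x

/-- the principal part for the unknown `w`; `z` is the value of `w` -/
def aW {n : ℕ} (X : Dat n) (P : Pa) (f : E n → ℝ) (x : E n) (z : ℝ) : Mx n := fun i j =>
  X.U x ^ (2 * bb n) / (4 * gam n) * aU X P x (D1 f x) (1 + z / X.U x) i j

/-- the penalty for small values of `u` -/
def pen {n : ℕ} (X : Dat n) (c : Cu) (x : E n) (z : ℝ) : ℝ :=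
  rc X.ρ x * c.A' * Real.smoothTransition (3 - 4 * z) * (1 - z)

/-- the right hand side for the unknown `w` -/
def bW {n : ℕ} (X : Dat n) (P : Pa) (c : Cu) (Φ : Jt n → ℝ) (ψ f : E n → ℝ) (x : E n) (z : ℝ)
    (q : Vc n) : ℝ :=
  rc (X.ρ + 1) x * (X.U x ^ (1 + 2 * bb n) / (4 * gam n) *
    (Φ (x, D1 f x, 1 + z / X.U x, D2 f x, fun i => q i / X.U x - z * pd i X.U x / X.U x ^ 2) -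
      Lam X P c ψ f x (1 + z / X.U x) * (1 + z / X.U x) - pen X c x (1 + z / X.U x)) +
    pr2 (aW X P f x z) fun i j => 2 * pd i X.U x * (q j / X.U x - z * pd j X.U x / X.U x ^ 2) +
      z / X.U x * D2 X.U x i j)

/-- **UEQ**: the equation for `w` -/
def UEQ : Prop := ∀ (n : ℕ) (X : Dat n) (P : Pa) c Φ ψ f w, X.Ok → P.Ok → Str X P Φ → Smooth f →
  Smooth w → (∀ x, X.R + 6 ≤ ‖x‖ → f x = 0) → ∀ x,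
    pr2 (aW X P f x (w x)) (D2 w x) - bW X P c Φ ψ f x (w x) (D1 w x) =
      X.U x ^ (1 + 2 * bb n) / (4 * gam n) * (Nu X P c ψ f (uw X w) x + pen X c x (uw X w x)) ∧
    (X.ρ + 1 ≤ ‖x‖ → bW X P c Φ ψ f x (w x) (D1 w x) = 0 ∧
      Nu X P c ψ f (uw X w) x = 4 * gam n * lap X.g (uw X w) x)

/-- the bounds of the pair `(ψ, f)` -/
structure Pf {n : ℕ} (P : Pa) (α H : ℝ) (ψ f : E n → ℝ) : Prop where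
  sψ : Smooth ψ
  sf : Smooth f
  bψ : ∀ x, ψ x ∈ Icc P.φ₀ 2
  hψ : Ho α H ψ
  hf : C2H α H f

/-- **ULP**: bounds of the coefficients -/
def ULP : Prop := ForP fun n X P => ∀ c Φ, Str X P Φ →
  (∃ Λ₀, ∀ f x z i j, |aW X P f x z i j| ≤ Λ₀) ∧ (∀ f x z, X.ρ ≤ ‖x‖ → aW X P f x z = eu n x) ∧
  (∀ ψ f x z q, X.ρ + 2 ≤ ‖x‖ → bW X P c Φ ψ f x z q = 0) ∧
  (∀ ψ f, Smooth ψ → Smooth f → (∀ x, ψ x ∈ Icc P.φ₀ 2) →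
    ContDiff ℝ ∞ (fun w : E n × ℝ => aW X P f w.1 w.2) ∧
    ContDiff ℝ ∞ fun w : E n × ℝ × Vc n => bW X P c Φ ψ f w.1 w.2.1 w.2.2) ∧
  ∀ α ∈ Ioo (0 : ℝ) 1, ∀ H K, ∃ Λ > (0 : ℝ), ∀ ψ f, Pf P α H ψ f → ∀ x z q, |z| ≤ K →
    El Λ (aW X P f x z) ∧ |bW X P c Φ ψ f x z q| ≤ Λ * (1 + e2 q) ∧
    (∀ y z', |z'| ≤ K → ‖aW X P f x z - aW X P f y z'‖ ≤ Λ * (‖x - y‖ + |z - z'|) ∧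
      |bW X P c Φ ψ f x z q - bW X P c Φ ψ f y z' q| ≤ Λ * (1 + e2 q) * (‖x - y‖ ^ α + |z - z'|)) ∧
    (∀ q', |bW X P c Φ ψ f x z q - bW X P c Φ ψ f x z q'| ≤ Λ * (1 + ‖q‖ + ‖q'‖) * ‖q - q'‖) ∧
    ∀ ψ' f' (d : ℝ), Pf P α H ψ' f' → |ψ x - ψ' x| ≤ d → |f x - f' x| ≤ d →
      ‖D1 f x - D1 f' x‖ ≤ d → ‖D2 f x - D2 f' x‖ ≤ d → ‖aW X P f x z - aW X P f' x z‖ ≤ Λ * d ∧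
        |bW X P c Φ ψ f x z q - bW X P c Φ ψ' f' x z q| ≤ Λ * (1 + e2 q) * d

/-- `w` solves the equation of the homotopy -/
structure Ws {n : ℕ} (X : Dat n) (P : Pa) (c : Cu) (Φ : Jt n → ℝ) (l σ : ℝ) (ψ f w : E n → ℝ) :
    Prop where
  sm : Smooth w
  lim : Tendsto w (cocompact (E n)) (𝓝 0)
  eqn : ∀ x, pr2 (aW X P f x (w x)) (D2 w x) =
    σ * bW X P c Φ ψ f x (w x) (D1 w x) + (1 - σ) * (l * rc (X.ρ + 1) x) * w x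

/-- **UBD**: the floor and the ceiling -/
def UBD : Prop := ∀ (n : ℕ) (X : Dat n) (CK : ℝ), X.Ok → ∃ cY ≥ (0 : ℝ), ∃ C : ℝ, ∀ P,
  Adm X CK C P → ∃ ε > (0 : ℝ), ∀ Φ, Str X P Φ → ∃ l₀ : ℝ, ∀ l ≥ l₀, ∀ σ₀ > (0 : ℝ),
    ∀ A ≥ (0 : ℝ), ∀ H : ℝ, ∃ A' ≥ (0 : ℝ), ∀ um ≥ (2 : ℝ), ∀ s ∈ Ioc 0 ε, ∀ σ ∈ Icc (0 : ℝ) 1,
      ∀ M A₁ ψ f w, Ps X P A₁ ψ → Jh X P s M ε ψ f →
      (∀ x, ‖D1 (fc X f) x‖ ≤ H ∧ ‖D2 (fc X f) x‖ ≤ H) →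
      Ws X P ⟨σ₀, A, cY, um, A'⟩ Φ l σ ψ (fc X f) w →
      ∀ x, 1 - 2 * P.η ≤ uw X w x ∧ uw X w x ≤ um + 1

/-- **UHO**: the a priori estimate for the homotopy -/
def UHO : Prop := ForP fun _ X P => ∀ c Φ, Str X P Φ → ∀ l K : ℝ, ∀ α ∈ Ioo (0 : ℝ) 1, ∀ H : ℝ,
  ∃ θ ∈ Ioo (0 : ℝ) 1, θ ≤ α ∧ ∃ C : ℝ, ∀ σ ∈ Icc (0 : ℝ) 1, ∀ ψ f w, Pf P α H ψ f →
    Ws X P c Φ l σ ψ f w → (∃ α' ∈ Ioo (0 : ℝ) 1, θ ≤ α' ∧ ∃ A, C2H α' A w) → (∀ x, |w x| ≤ K) →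
    Ho θ C (J1 w)

/-- **UEX**: existence for the coupled system -/
def UEX : Prop := ∀ (n : ℕ) (X : Dat n) (CK : ℝ), X.Ok → ∃ cY ≥ (0 : ℝ), ∃ C : ℝ, ∀ P,
  Adm X CK C P → ∃ M : ℝ, ∀ ε > (0 : ℝ), ∃ s₀ > (0 : ℝ), ∀ s ∈ Ioc 0 s₀, ∀ Cm : ℝ, ∃ A₁ : ℝ,
    ∀ δ ∈ Ioc (0 : ℝ) (1 / 2), ∀ S, Mol Cm δ S → ∀ σ₀ > (0 : ℝ), ∀ A ≥ (0 : ℝ), ∀ um ≥ (2 : ℝ),
      ∃ A' ≥ (0 : ℝ), ∃ f u, Jh X P s M ε (psi X P S u) f ∧ (∀ x, ‖D2 f x‖ ≤ A₁ / δ) ∧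
        Us X P ⟨σ₀, A, cY, um, A'⟩ (psi X P S u) (fc X f) u ∧
        ∀ x, X.ρ + 1 ≤ ‖x‖ → lap X.g u x = 0

/-- **EST**: the estimate of the mass and of the energy -/
def EST : Prop := ∀ (n : ℕ) (X : Dat n) (CK : ℝ), X.Ok → ∃ σ₀ > (0 : ℝ), ∃ A ≥ (0 : ℝ),
  ∀ cY ≥ (0 : ℝ), ∃ C : ℝ, ∀ P, Adm X CK C P → ∀ M : ℝ, ∃ ε > (0 : ℝ), ∃ s₀ > (0 : ℝ),
    ∀ s ∈ Ioc 0 s₀, ∀ A₁ Cm : ℝ, ∃ δ₀ > (0 : ℝ), ∃ C₂ > (0 : ℝ), ∀ δ ∈ Ioc 0 δ₀, ∀ S, Mol Cm δ S →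
      ∀ um, ∀ A' ≥ (0 : ℝ), ∀ f u β, Jh X P s M ε (psi X P S u) f → (∀ x, ‖D2 f x‖ ≤ A₁ / δ) →
        Us X P ⟨σ₀, A, cY, um, A'⟩ (psi X P S u) (fc X f) u → Asy u 1 β →
        ∀ r, En u r / C₂ + β ≤ P.η

/-- **UFAR**: the expansion at infinity -/
def UFAR : Prop := ∀ (n : ℕ) (X : Dat n), X.Ok → ∃ C : ℝ, ∀ u : E n → ℝ,
  Smooth u → Tendsto u (cocompact (E n)) (𝓝 1) → (∀ x, 0 ≤ u x) →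
  (∀ x, X.ρ + 1 ≤ ‖x‖ → lap X.g u x = 0) →
  ∃ β, Asy (fun x => X.U x * u x) 1 (X.β₁ + β) ∧ Asy u 1 β ∧ -C ≤ β

/-- **USUP**: the ceiling is not reached -/
def USUP : Prop := ∀ (n : ℕ) (X : Dat n) (P : Pa), X.Ok → P.Ok → ∀ σ₀ A cY H E₀ : ℝ, 0 ≤ A →
  ∃ K : ℝ, ∀ um, ∀ A' ≥ (0 : ℝ), ∀ ψ f u, Smooth f → (∀ x, ‖D1 f x‖ ≤ H ∧ ‖D2 f x‖ ≤ H) →
    (∀ x, X.R + 6 ≤ ‖x‖ → f x = 0) → Us X P ⟨σ₀, A, cY, um, A'⟩ ψ f u →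
    (∀ x, X.ρ + 1 ≤ ‖x‖ → lap X.g u x = 0) → (∀ r, En u r ≤ E₀) → ∀ x, u x ≤ K

/-! ### the assembly -/

/-- **JANG** -/
def JANG : Prop := ∀ (n : ℕ) (X : Dat n), X.Ok → ∃ σ₀ > (0 : ℝ), ∀ η ∈ Ioc (0 : ℝ) (1 / 16),
  ∀ ℓ : ℝ, ∃ w f u φ₀ F₀ β, Sol X σ₀ η ℓ w f u φ₀ F₀ β ∧ Tendsto u (cocompact (E n)) (𝓝 1)

/-- **RED0**: the preparation of the data -/
def RED0 : Prop := ∀ (n : ℕ) (D : Exterior n) (m : ℝ), 3 ≤ n → D.IsAF → D.DEC → D.Trapped →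
  D.IsEnergy m → ∀ η > (0 : ℝ), ∃ ρ : ℝ, ∀ δ > (0 : ℝ), ∃ X : Dat n, X.Ok ∧ X.ρ = ρ ∧ X.Of D m η δ

/-- **NKA**: the neck -/
def NKA : Prop := ∀ (n : ℕ) (D : Exterior n) (m : ℝ), 3 ≤ n →
  (∀ η > (0 : ℝ), ∃ ρ : ℝ, ∀ δ > (0 : ℝ), ∃ X : Dat n, X.Ok ∧ X.ρ = ρ ∧ X.Of D m η δ) → Y.Neck D m

end Vale.Agent.P366Y
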